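import Mathlib

namespace Vale.Agent.Lib.P045

open Finset

/-- Caro-Wei bound for a symmetric irreflexive relation on a finite set. -/
theorem caro_wei {β : Type*} [DecidableEq β] (adj : β → β → Prop) [DecidableRel adj]
    (hsymm : ∀ x y, adj x y → adj y x) (hirr : ∀ x, ¬ adj x x) (S : Finset β) :
    ∃ I ⊆ S, (∀ x ∈ I, ∀ y ∈ I, ¬ adj x y) ∧
      ∑ x ∈ S, (1 : ℚ) / (((S.filter (fun y => adj x y)).card : ℚ) + 1) ≤ (I.card : ℚ) := by
  induction' h : S.card using Nat.strong_induction_on with n ih generalizing S
  rcases S.eq_empty_or_nonempty with rfl | hne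
  · exact ⟨∅, by simp, by simp, by simp⟩
  · obtain ⟨x, hxS, hxmin⟩ :=
      Finset.exists_min_image S (fun x => (S.filter (fun y => adj x y)).card) hne
    obtain ⟨N, hN⟩ : ∃ N, N = S.filter (fun y => adj x y) := ⟨_, rfl⟩
    obtain ⟨S', hS'⟩ : ∃ S', S' = S \ insert x N := ⟨_, rfl⟩
    have hS'sub : S' ⊆ S := by rw [hS']; exact sdiff_subset
    have hxN : x ∉ N := by
      rw [hN, mem_filter]
      exact fun hx => hirr x hx.2
    have hNS : insert x N ⊆ S := by
      intro y hy
      rcases mem_insert.mp hy with hyx | hy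
      · rw [hyx]; exact hxS
      · rw [hN] at hy; exact (mem_filter.mp hy).1
    have hxS' : x ∉ S' := by
      rw [hS', mem_sdiff]
      exact fun hx => hx.2 (mem_insert_self x N)
    have hcard : S'.card < S.card := by
      apply Finset.card_lt_card
      exact ⟨hS'sub, fun hsub => hxS' (hsub hxS)⟩
    obtain ⟨I', hI'S', hI'ind, hI'sum⟩ := ih S'.card (h ▸ hcard) S' rfl
    have hxI' : x ∉ I' := fun hx => hxS' (hI'S' hx)
    have hnotadj : ∀ b ∈ I', ¬ adj x b := by
      intro b hb hab
      have hb' := hI'S' hb
      rw [hS', mem_sdiff] at hb'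
      apply hb'.2
      apply mem_insert_of_mem
      rw [hN, mem_filter]
      exact ⟨hb'.1, hab⟩
    refine ⟨insert x I', ?_, ?_, ?_⟩
    · intro y hy
      rcases mem_insert.mp hy with hyx | hy
      · rw [hyx]; exact hxS
      · exact hS'sub (hI'S' hy)
    · intro a ha b hb
      rcases mem_insert.mp ha with hax | ha <;> rcases mem_insert.mp hb with hbx | hb
      · rw [hax, hbx]; exact hirr _
      · rw [hax]; exact hnotadj b hb
      · rw [hbx]; exact fun hab => hnotadj a ha (hsymm _ _ hab)
      · exact hI'ind a ha b hb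
    · have hsplit : S' ∪ insert x N = S := by
        rw [hS', sdiff_union_of_subset hNS]
      have hdisj : Disjoint S' (insert x N) := by
        rw [hS']; exact sdiff_disjoint
      have h1 : ∑ y ∈ S', (1 : ℚ) / (((S.filter (fun z => adj y z)).card : ℚ) + 1)
          ≤ ∑ y ∈ S', (1 : ℚ) / (((S'.filter (fun z => adj y z)).card : ℚ) + 1) := by
        apply Finset.sum_le_sum
        intro y _
        apply one_div_le_one_div_of_le
        · positivity
        · have : (S'.filter (fun z => adj y z)).card ≤ (S.filter (fun z => adj y z)).card :=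
            Finset.card_le_card (Finset.filter_subset_filter _ hS'sub)
          exact_mod_cast Nat.add_le_add_right this 1
      have h2 : ∑ y ∈ insert x N, (1 : ℚ) / (((S.filter (fun z => adj y z)).card : ℚ) + 1)
          ≤ ∑ _y ∈ insert x N, (1 : ℚ) / ((N.card : ℚ) + 1) := by
        apply Finset.sum_le_sum
        intro y hy
        apply one_div_le_one_div_of_le
        · positivity
        · have := hxmin y (hNS hy)
          rw [← hN] at this
          exact_mod_cast Nat.add_le_add_right this 1
      have h3 : ∑ _y ∈ insert x N, (1 : ℚ) / ((N.card : ℚ) + 1) = 1 := by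
        rw [Finset.sum_const, Finset.card_insert_of_notMem hxN]
        have : ((N.card : ℚ) + 1) ≠ 0 := by positivity
        simp only [nsmul_eq_mul]
        push_cast
        field_simp
      have h4 : ∑ y ∈ S, (1 : ℚ) / (((S.filter (fun z => adj y z)).card : ℚ) + 1)
          = ∑ y ∈ S', (1 : ℚ) / (((S.filter (fun z => adj y z)).card : ℚ) + 1)
            + ∑ y ∈ insert x N, (1 : ℚ) / (((S.filter (fun z => adj y z)).card : ℚ) + 1) := by
        rw [← Finset.sum_union hdisj, hsplit]
      rw [Finset.card_insert_of_notMem hxI']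
      push_cast
      linarith

end Vale.Agent.Lib.P045
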