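import Mathlib
import Vale.Agent.Lib.P045.CaroWei

namespace Vale.Agent.Lib.P045

open Finset

variable {r : ℕ} {α : Type*} [DecidableEq α]

/-- number of edges of `E` through the vertex `(i, e i)` -/
def fib (E : Finset (Fin r → α)) (i : Fin r) (e : Fin r → α) : ℕ :=
  (E.filter (fun f => f i = e i)).card

lemma fib_pos {E : Finset (Fin r → α)} {e : Fin r → α} (he : e ∈ E) (i : Fin r) :
    1 ≤ fib E i e :=
  Finset.card_pos.mpr ⟨e, by simp [he]⟩

lemma card_image_eq_sum (E : Finset (Fin r → α)) (i : Fin r) :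
    ((E.image (fun e => e i)).card : ℚ) = ∑ e ∈ E, (1 : ℚ) / (fib E i e) := by
  rw [← Finset.sum_fiberwise_of_maps_to (g := fun e => e i) (t := E.image (fun e => e i))
    (fun x hx => mem_image_of_mem _ hx)]
  rw [Finset.card_eq_sum_ones]
  push_cast
  apply Finset.sum_congr rfl
  intro a ha
  have h1 : ∀ e ∈ E.filter (fun e => e i = a),
      (1 : ℚ) / fib E i e = 1 / ((E.filter (fun e => e i = a)).card : ℚ) := by
    intro e he
    simp only [fib]
    rw [(mem_filter.mp he).2]
  rw [Finset.sum_congr rfl h1, Finset.sum_const, nsmul_eq_mul]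
  have hpos : 0 < (E.filter (fun e => e i = a)).card := by
    obtain ⟨e, he, rfl⟩ := mem_image.mp ha
    exact Finset.card_pos.mpr ⟨e, by simp [he]⟩
  have : ((E.filter (fun e => e i = a)).card : ℚ) ≠ 0 := by positivity
  field_simp

/-- two distinct edges sharing a vertex -/
def adjE (e f : Fin r → α) : Prop := e ≠ f ∧ ∃ i, e i = f i

lemma deg_le (E : Finset (Fin r → α)) [DecidableRel (adjE (r := r) (α := α))]
    {e : Fin r → α} (he : e ∈ E) :
    (E.filter (fun f => adjE e f)).card ≤ ∑ i, (fib E i e - 1) := by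
  have hsub : E.filter (fun f => adjE e f) ⊆
      (univ : Finset (Fin r)).biUnion (fun i => (E.filter (fun f => f i = e i)).erase e) := by
    intro f hf
    rw [mem_filter] at hf
    obtain ⟨hfE, hne, i, hi⟩ := hf
    rw [mem_biUnion]
    refine ⟨i, mem_univ _, ?_⟩
    rw [mem_erase, mem_filter]
    exact ⟨fun h => hne h.symm, hfE, hi.symm⟩
  calc (E.filter (fun f => adjE e f)).card
      ≤ ((univ : Finset (Fin r)).biUnion
          (fun i => (E.filter (fun f => f i = e i)).erase e)).card := card_le_card hsub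
    _ ≤ ∑ i, ((E.filter (fun f => f i = e i)).erase e).card := card_biUnion_le
    _ = ∑ i, (fib E i e - 1) := by
        apply Finset.sum_congr rfl
        intro i _
        rw [card_erase_of_mem (by simp [he])]
        rfl

/-- Framework: if every edge satisfies a local degree inequality with constant `c`, then some
part (restricted to the vertices lying in edges) has at most `c` times the size of a matching. -/
theorem exists_part_le (hr : 0 < r) (E : Finset (Fin r → α)) (c : ℚ) (hc : 0 ≤ c)
    (hedge : ∀ e ∈ E, (∑ i, (1 : ℚ) / (fib E i e)) * (1 + ∑ i, ((fib E i e - 1 : ℕ) : ℚ))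
      ≤ r * c) :
    ∃ i : Fin r, ∃ M ⊆ E, (∀ e ∈ M, ∀ f ∈ M, e ≠ f → ∀ j, e j ≠ f j) ∧
      ((E.image (fun e => e i)).card : ℚ) ≤ c * M.card := by
  classical
  obtain ⟨M, hME, hMind, hMsum⟩ := caro_wei (adjE (r := r) (α := α))
    (fun x y h => ⟨h.1.symm, h.2.imp fun i hi => hi.symm⟩) (fun x h => h.1 rfl) E
  have hedge' : ∀ e ∈ E, (∑ i, (1 : ℚ) / (fib E i e)) ≤
      r * c * ((1 : ℚ) / (((E.filter (fun f => adjE e f)).card : ℚ) + 1)) := by
    intro e he
    have h1 := hedge e he
    have h2 : (((E.filter (fun f => adjE e f)).card : ℚ) + 1)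
        ≤ 1 + ∑ i, ((fib E i e - 1 : ℕ) : ℚ) := by
      have := deg_le E he
      have h3 : (((E.filter (fun f => adjE e f)).card : ℕ) : ℚ)
          ≤ ((∑ i, (fib E i e - 1) : ℕ) : ℚ) := by exact_mod_cast this
      push_cast at h3
      linarith
    have hS : 0 ≤ ∑ i, (1 : ℚ) / (fib E i e) := by positivity
    have hpos : (0 : ℚ) < ((E.filter (fun f => adjE e f)).card : ℚ) + 1 := by positivity
    rw [mul_one_div, le_div_iff₀ hpos]
    calc (∑ i, (1 : ℚ) / (fib E i e)) * (((E.filter (fun f => adjE e f)).card : ℚ) + 1)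
        ≤ (∑ i, (1 : ℚ) / (fib E i e)) * (1 + ∑ i, ((fib E i e - 1 : ℕ) : ℚ)) :=
          mul_le_mul_of_nonneg_left h2 hS
      _ ≤ r * c := h1
  have htotal : ∑ i : Fin r, ((E.image (fun e => e i)).card : ℚ) ≤ ∑ _i : Fin r, c * M.card := by
    calc ∑ i : Fin r, ((E.image (fun e => e i)).card : ℚ)
        = ∑ i : Fin r, ∑ e ∈ E, (1 : ℚ) / (fib E i e) := by
          apply Finset.sum_congr rfl
          intro i _
          exact card_image_eq_sum E i
      _ = ∑ e ∈ E, ∑ i : Fin r, (1 : ℚ) / (fib E i e) := Finset.sum_comm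
      _ ≤ ∑ e ∈ E, r * c * ((1 : ℚ) / (((E.filter (fun f => adjE e f)).card : ℚ) + 1)) :=
          Finset.sum_le_sum hedge'
      _ = r * c * ∑ e ∈ E, ((1 : ℚ) / (((E.filter (fun f => adjE e f)).card : ℚ) + 1)) := by
          rw [Finset.mul_sum]
      _ ≤ r * c * M.card := by
          apply mul_le_mul_of_nonneg_left hMsum
          positivity
      _ = ∑ _i : Fin r, c * M.card := by
          rw [Finset.sum_const, Finset.card_univ, Fintype.card_fin, nsmul_eq_mul]
          ring
  haveI : Nonempty (Fin r) := ⟨⟨0, hr⟩⟩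
  obtain ⟨i, _, hi⟩ := Finset.exists_le_of_sum_le (Finset.univ_nonempty (α := Fin r)) htotal
  refine ⟨i, M, hME, ?_, hi⟩
  intro e he f hf hne j hj
  exact hMind e he f hf ⟨hne, j, hj⟩

/-- The vertices of part `i` lying in edges form a vertex cover. -/
lemma cover_of_part (E : Finset (Fin r → α)) (i : Fin r) :
    ∃ C : Finset (Fin r × α), (∀ e ∈ E, ∃ j, (j, e j) ∈ C) ∧
      C.card = (E.image (fun e => e i)).card := by
  refine ⟨(E.image (fun e => e i)).image (fun a => (i, a)), ?_, ?_⟩
  · intro e he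
    exact ⟨i, mem_image_of_mem _ (mem_image_of_mem _ he)⟩
  · exact Finset.card_image_of_injective _ (Prod.mk_right_injective i)

end Vale.Agent.Lib.P045
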