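import Mathlib
import Vale.Agent.Lib.P045.Degree

namespace Vale.Agent.Lib.P045

open Finset

variable {r : ℕ} {α : Type*} [DecidableEq α]

/-- Reduction + counting: Ryser's inequality for maximum degree at most `D`, provided the local
degree inequality holds for every edge of every hypergraph of maximum degree at most `D` in which
all vertices of edges have degree at least two. -/
theorem bounded_induction (hr : 2 ≤ r) (D : ℕ)
    (hnum : ∀ E : Finset (Fin r → α),
      (∀ (i : Fin r) (a : α), (E.filter (fun e => e i = a)).card ≤ D) →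
      (∀ e ∈ E, ∀ i, 2 ≤ fib E i e) →
      ∀ e ∈ E, (∑ i, (1 : ℚ) / (fib E i e)) * (1 + ∑ i, ((fib E i e - 1 : ℕ) : ℚ))
        ≤ r * ((r : ℚ) - 1))
    (E : Finset (Fin r → α))
    (hdeg : ∀ (i : Fin r) (a : α), (E.filter (fun e => e i = a)).card ≤ D) :
    ∃ (C : Finset (Fin r × α)) (M : Finset (Fin r → α)),
      (∀ e ∈ E, ∃ i, (i, e i) ∈ C) ∧ M ⊆ E ∧
      (∀ e ∈ M, ∀ f ∈ M, e ≠ f → ∀ i, e i ≠ f i) ∧
      C.card ≤ (r - 1) * M.card := by
  induction' h : E.card using Nat.strong_induction_on with n ih generalizing E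
  by_cases h1 : ∃ e ∈ E, ∃ i, fib E i e = 1
  · obtain ⟨e, he, i, hi⟩ := h1
    obtain ⟨E', hE'⟩ : ∃ E', E' = E.filter (fun f => ∀ j, f j ≠ e j) := ⟨_, rfl⟩
    have hE'sub : E' ⊆ E := by rw [hE']; exact filter_subset _ _
    have heE' : e ∉ E' := by
      rw [hE', mem_filter]
      exact fun hh => hh.2 i rfl
    have hcard : E'.card < E.card :=
      Finset.card_lt_card ⟨hE'sub, fun hsub => heE' (hsub he)⟩
    have hdeg' : ∀ (j : Fin r) (a : α), (E'.filter (fun f => f j = a)).card ≤ D :=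
      fun j a => (card_le_card (filter_subset_filter _ hE'sub)).trans (hdeg j a)
    obtain ⟨C', M', hC', hM'sub, hM', hcard'⟩ := ih E'.card (h ▸ hcard) E' hdeg' rfl
    have heM' : e ∉ M' := fun hh => heE' (hM'sub hh)
    refine ⟨C' ∪ ((univ : Finset (Fin r)).erase i).image (fun j => (j, e j)), insert e M',
      ?_, ?_, ?_, ?_⟩
    · intro f hf
      by_cases hfE' : f ∈ E'
      · obtain ⟨j, hj⟩ := hC' f hfE'
        exact ⟨j, mem_union_left _ hj⟩
      · rw [hE', mem_filter] at hfE'
        have : ∃ j, f j = e j := by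
          by_contra hcon
          exact hfE' ⟨hf, fun j hj => hcon ⟨j, hj⟩⟩
        obtain ⟨j, hj⟩ := this
        by_cases hji : j = i
        · -- then f = e, since the vertex (i, e i) has degree one
          have hfe : f = e := by
            have h1 : (E.filter (fun g => g i = e i)).card = 1 := hi
            rw [Finset.card_eq_one] at h1
            obtain ⟨g, hg⟩ := h1
            have hf' : f ∈ E.filter (fun g => g i = e i) := by
              rw [mem_filter]; exact ⟨hf, by rw [← hji]; exact hj⟩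
            have he' : e ∈ E.filter (fun g => g i = e i) := by
              rw [mem_filter]; exact ⟨he, rfl⟩
            rw [hg, mem_singleton] at hf' he'
            rw [hf', he']
          obtain ⟨j', hj'⟩ : ∃ j' : Fin r, j' ≠ i := by
            by_cases hi0 : i = ⟨0, by omega⟩
            · exact ⟨⟨1, by omega⟩, by rw [hi0]; simp [Fin.ext_iff]⟩
            · exact ⟨⟨0, by omega⟩, fun hh => hi0 hh.symm⟩
          refine ⟨j', mem_union_right _ ?_⟩
          rw [hfe]
          exact mem_image_of_mem _ (mem_erase.mpr ⟨hj', mem_univ _⟩)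
        · refine ⟨j, mem_union_right _ ?_⟩
          rw [hj]
          exact mem_image_of_mem _ (mem_erase.mpr ⟨hji, mem_univ _⟩)
    · intro f hf
      rcases mem_insert.mp hf with hfe | hf
      · rw [hfe]; exact he
      · exact hE'sub (hM'sub hf)
    · have hdisj : ∀ g ∈ M', ∀ j, g j ≠ e j := by
        intro g hg
        have := hM'sub hg
        rw [hE', mem_filter] at this
        exact this.2
      intro f hf g hg hfg j
      rcases mem_insert.mp hf with hfe | hf <;> rcases mem_insert.mp hg with hge | hg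
      · exact absurd (hfe.trans hge.symm) hfg
      · rw [hfe]; exact fun hh => hdisj g hg j hh.symm
      · rw [hge]; exact hdisj f hf j
      · exact hM' f hf g hg hfg j
    · have h2 : (((univ : Finset (Fin r)).erase i).image (fun j => (j, e j))).card ≤ r - 1 := by
        calc (((univ : Finset (Fin r)).erase i).image (fun j => (j, e j))).card
            ≤ ((univ : Finset (Fin r)).erase i).card := card_image_le
          _ = r - 1 := by rw [card_erase_of_mem (mem_univ _), card_univ, Fintype.card_fin]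
      have h3 := card_union_le C' (((univ : Finset (Fin r)).erase i).image (fun j => (j, e j)))
      rw [card_insert_of_notMem heM']
      calc (C' ∪ ((univ : Finset (Fin r)).erase i).image (fun j => (j, e j))).card
          ≤ C'.card + (r - 1) := by omega
        _ ≤ (r - 1) * M'.card + (r - 1) := by omega
        _ = (r - 1) * (M'.card + 1) := by ring
  · have h2 : ∀ e ∈ E, ∀ i, 2 ≤ fib E i e := by
      intro e he i
      have hp := fib_pos he i
      have hne : fib E i e ≠ 1 := fun hh => h1 ⟨e, he, i, hh⟩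
      omega
    have hr1 : (1 : ℚ) ≤ r := by exact_mod_cast (by omega : 1 ≤ r)
    obtain ⟨i, M, hME, hM, hle⟩ :=
      exists_part_le (by omega) E ((r : ℚ) - 1) (by linarith) (hnum E hdeg h2)
    obtain ⟨C, hC, hCcard⟩ := cover_of_part E i
    refine ⟨C, M, hC, hME, hM, ?_⟩
    rw [hCcard]
    have h6 : ((r - 1 : ℕ) : ℚ) = (r : ℚ) - 1 := by
      rw [Nat.cast_sub (by omega)]; simp
    have : ((E.image (fun e => e i)).card : ℚ) ≤ ((r - 1 : ℕ) : ℚ) * M.card := by
      rw [h6]; exact hle
    exact_mod_cast this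

/-- chord bound for `1/d`, `2 ≤ d ≤ D` -/
lemma chord_bound (D d : ℕ) (h2 : 2 ≤ d) (hD : d ≤ D) :
    (1 : ℚ) / d ≤ ((D : ℚ) + 1 - ((d - 1 : ℕ) : ℚ)) / (2 * D) := by
  have hd : (0 : ℚ) < d := by exact_mod_cast (by omega : 0 < d)
  have hDpos : (0 : ℚ) < D := by exact_mod_cast (by omega : 0 < D)
  have h1 : ((d - 1 : ℕ) : ℚ) = (d : ℚ) - 1 := by
    rw [Nat.cast_sub (by omega)]; simp
  rw [h1, div_le_div_iff₀ hd (by positivity)]
  have hd2 : (2 : ℚ) ≤ d := by exact_mod_cast h2
  have hdD : (d : ℚ) ≤ D := by exact_mod_cast hD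
  nlinarith [mul_nonneg (by linarith : (0 : ℚ) ≤ (d : ℚ) - 2) (by linarith : (0 : ℚ) ≤ (D : ℚ) - d)]

/-- The local inequality follows from a numeric inequality in `s = Σ (deg - 1)`. -/
lemma local_of_num (D : ℕ) (hD : 2 ≤ D)
    (hnum : ∀ s : ℕ, (((D : ℚ) + 1) * r - s) / (2 * D) * (1 + s) ≤ r * ((r : ℚ) - 1))
    (E : Finset (Fin r → α))
    (hdeg : ∀ (i : Fin r) (a : α), (E.filter (fun e => e i = a)).card ≤ D)
    (h2 : ∀ e ∈ E, ∀ i, 2 ≤ fib E i e) :
    ∀ e ∈ E, (∑ i, (1 : ℚ) / (fib E i e)) * (1 + ∑ i, ((fib E i e - 1 : ℕ) : ℚ))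
      ≤ r * ((r : ℚ) - 1) := by
  intro e he
  have hDpos : (0 : ℚ) < D := by exact_mod_cast (by omega : 0 < D)
  have h1 : ∑ i : Fin r, (1 : ℚ) / (fib E i e)
      ≤ (((D : ℚ) + 1) * r - ∑ i : Fin r, ((fib E i e - 1 : ℕ) : ℚ)) / (2 * D) := by
    calc ∑ i : Fin r, (1 : ℚ) / (fib E i e)
        ≤ ∑ i : Fin r, ((D : ℚ) + 1 - ((fib E i e - 1 : ℕ) : ℚ)) / (2 * D) :=
          Finset.sum_le_sum (fun i _ => chord_bound D _ (h2 e he i) (hdeg i (e i)))
      _ = (((D : ℚ) + 1) * r - ∑ i : Fin r, ((fib E i e - 1 : ℕ) : ℚ)) / (2 * D) := by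
          rw [← Finset.sum_div, Finset.sum_sub_distrib, Finset.sum_const,
            Finset.card_univ, Fintype.card_fin]
          simp
          ring
  have h4 := hnum (∑ i : Fin r, (fib E i e - 1))
  have h5 : (0 : ℚ) ≤ 1 + ∑ i : Fin r, ((fib E i e - 1 : ℕ) : ℚ) := by positivity
  calc (∑ i, (1 : ℚ) / (fib E i e)) * (1 + ∑ i, ((fib E i e - 1 : ℕ) : ℚ))
      ≤ ((((D : ℚ) + 1) * r - ∑ i : Fin r, ((fib E i e - 1 : ℕ) : ℚ)) / (2 * D))
          * (1 + ∑ i, ((fib E i e - 1 : ℕ) : ℚ)) := mul_le_mul_of_nonneg_right h1 h5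
    _ ≤ r * ((r : ℚ) - 1) := by
        push_cast at h4 ⊢
        exact h4

end Vale.Agent.Lib.P045
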