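import Mathlib
import Vale.Agent.Lib.P045.Bounded

namespace Vale.Agent.Lib.P045

open Finset

variable {r : ℕ} {α : Type*} [DecidableEq α]

/-- a product of two consecutive-integer shifts is nonnegative -/
lemma consec_nonneg (s k : ℕ) : (0 : ℚ) ≤ ((s : ℚ) - k) * ((s : ℚ) - (k + 1)) := by
  rcases Nat.lt_or_ge s (k + 1) with h | h
  · have h1 : (s : ℚ) ≤ k := by exact_mod_cast Nat.lt_succ_iff.mp h
    exact mul_nonneg_of_nonpos_of_nonpos (by linarith) (by linarith)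
  · have h1 : ((k : ℚ) + 1) ≤ s := by exact_mod_cast h
    exact mul_nonneg (by linarith) (by linarith)

/-- numeric inequality for maximum degree three, `r ≥ 4` -/
lemma numB_three (r : ℕ) (hr : 4 ≤ r) (s : ℕ) :
    ((((3 : ℕ) : ℚ) + 1) * r - s) / (2 * ((3 : ℕ) : ℚ)) * (1 + s) ≤ r * ((r : ℚ) - 1) := by
  rw [div_mul_eq_mul_div, div_le_iff₀ (by norm_num)]
  rcases Nat.lt_or_ge r 5 with h5 | h5
  · have hr4 : r = 4 := by omega
    subst hr4
    have hs := consec_nonneg s 7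
    push_cast at hs ⊢
    nlinarith [hs]
  · have h5' : (5 : ℚ) ≤ r := by exact_mod_cast h5
    push_cast
    nlinarith [sq_nonneg (2 * (s : ℚ) - 4 * r + 1),
      mul_nonneg (by linarith : (0 : ℚ) ≤ (r : ℚ) - 5) (by linarith : (0 : ℚ) ≤ (r : ℚ))]

/-- numeric inequality for maximum degree four, `r ≥ 6` -/
lemma numB_four (r : ℕ) (hr : 6 ≤ r) (s : ℕ) :
    ((((4 : ℕ) : ℚ) + 1) * r - s) / (2 * ((4 : ℕ) : ℚ)) * (1 + s) ≤ r * ((r : ℚ) - 1) := by
  rw [div_mul_eq_mul_div, div_le_iff₀ (by norm_num)]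
  rcases Nat.lt_or_ge r 7 with h7 | h7
  · have hr6 : r = 6 := by omega
    subst hr6
    have hs := consec_nonneg s 14
    push_cast at hs ⊢
    nlinarith [hs]
  · have h7' : (7 : ℚ) ≤ r := by exact_mod_cast h7
    push_cast
    nlinarith [sq_nonneg (2 * (s : ℚ) - 5 * r + 1),
      mul_nonneg (by linarith : (0 : ℚ) ≤ (r : ℚ) - 7) (by linarith : (0 : ℚ) ≤ (r : ℚ))]

/-- numeric inequality for maximum degree five, `r ≥ 13` -/
lemma numB_five (r : ℕ) (hr : 13 ≤ r) (s : ℕ) :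
    ((((5 : ℕ) : ℚ) + 1) * r - s) / (2 * ((5 : ℕ) : ℚ)) * (1 + s) ≤ r * ((r : ℚ) - 1) := by
  rw [div_mul_eq_mul_div, div_le_iff₀ (by norm_num)]
  rcases Nat.lt_or_ge r 14 with h14 | h14
  · have hr13 : r = 13 := by omega
    subst hr13
    have hs := consec_nonneg s 38
    push_cast at hs ⊢
    nlinarith [hs]
  · have h14' : (14 : ℚ) ≤ r := by exact_mod_cast h14
    push_cast
    nlinarith [sq_nonneg (2 * (s : ℚ) - 6 * r + 1),
      mul_nonneg (by linarith : (0 : ℚ) ≤ (r : ℚ) - 14) (by linarith : (0 : ℚ) ≤ (r : ℚ))]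

/-- Ryser's inequality for maximum degree at most `D`, given the numeric inequality. -/
theorem bounded_of_num (hr : 2 ≤ r) (D : ℕ) (hD : 2 ≤ D)
    (hnum : ∀ s : ℕ, (((D : ℚ) + 1) * r - s) / (2 * D) * (1 + s) ≤ r * ((r : ℚ) - 1))
    (E : Finset (Fin r → α))
    (hdeg : ∀ (i : Fin r) (a : α), (E.filter (fun e => e i = a)).card ≤ D) :
    ∃ (C : Finset (Fin r × α)) (M : Finset (Fin r → α)),
      (∀ e ∈ E, ∃ i, (i, e i) ∈ C) ∧ M ⊆ E ∧
      (∀ e ∈ M, ∀ f ∈ M, e ≠ f → ∀ i, e i ≠ f i) ∧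
      C.card ≤ (r - 1) * M.card :=
  bounded_induction hr D (fun E' hdeg' h2 => local_of_num D hD hnum E' hdeg' h2) E hdeg

/-- Ryser's inequality for bounded maximum degree. -/
theorem bounded_degree (D : ℕ)
    (hrD : (D ≤ 3 ∧ 4 ≤ r) ∨ (D ≤ 4 ∧ 6 ≤ r) ∨ (D ≤ 5 ∧ 13 ≤ r))
    (E : Finset (Fin r → α))
    (hdeg : ∀ (i : Fin r) (a : α), (E.filter (fun e => e i = a)).card ≤ D) :
    ∃ (C : Finset (Fin r × α)) (M : Finset (Fin r → α)),
      (∀ e ∈ E, ∃ i, (i, e i) ∈ C) ∧ M ⊆ E ∧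
      (∀ e ∈ M, ∀ f ∈ M, e ≠ f → ∀ i, e i ≠ f i) ∧
      C.card ≤ (r - 1) * M.card := by
  rcases hrD with ⟨hD, hr⟩ | ⟨hD, hr⟩ | ⟨hD, hr⟩
  · exact bounded_of_num (by omega) 3 (by norm_num) (numB_three r hr) E
      (fun i a => (hdeg i a).trans hD)
  · exact bounded_of_num (by omega) 4 (by norm_num) (numB_four r hr) E
      (fun i a => (hdeg i a).trans hD)
  · exact bounded_of_num (by omega) 5 (by norm_num) (numB_five r hr) E
      (fun i a => (hdeg i a).trans hD)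

end Vale.Agent.Lib.P045
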