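import Mathlib
import Vale.Agent.Lib.P045.Degree

namespace Vale.Agent.Lib.P045

open Finset

variable {r : ℕ} {α : Type*} [DecidableEq α]

/-- A sum of `G (f a)` over `S`, when `f` takes values in `{1,...,5}`, sorted by value. -/
lemma sum_by_value {β : Type*} [DecidableEq β] (S : Finset β) (f : β → ℕ)
    (hf : ∀ a ∈ S, 1 ≤ f a ∧ f a ≤ 5) (G : ℕ → ℕ) :
    ∑ a ∈ S, G (f a) =
      (S.filter (fun a => f a = 1)).card * G 1 + (S.filter (fun a => f a = 2)).card * G 2 +
      (S.filter (fun a => f a = 3)).card * G 3 + (S.filter (fun a => f a = 4)).card * G 4 +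
      (S.filter (fun a => f a = 5)).card * G 5 := by
  have h := Finset.sum_fiberwise_of_maps_to (s := S) (t := Finset.Icc 1 5) (g := f)
    (fun a ha => Finset.mem_Icc.mpr (hf a ha)) (fun a => G (f a))
  rw [← h]
  have h2 : ∀ d, ∑ a ∈ S.filter (fun a => f a = d), G (f a)
      = (S.filter (fun a => f a = d)).card * G d := by
    intro d
    rw [Finset.sum_congr rfl (fun a ha => by rw [(Finset.mem_filter.mp ha).2]),
      Finset.sum_const, smul_eq_mul]
  simp only [h2]
  have h3 : (Finset.Icc 1 5 : Finset ℕ) = {1, 2, 3, 4, 5} := by decide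
  rw [h3, Finset.sum_insert (by decide), Finset.sum_insert (by decide),
    Finset.sum_insert (by decide), Finset.sum_insert (by decide), Finset.sum_singleton]
  ring

/-- Sums over edges of a function of the degree of the vertex in part `i`, grouped by vertex. -/
lemma sum_fib_eq (E : Finset (Fin r → α)) (i : Fin r) (G : ℕ → ℕ) :
    ∑ e ∈ E, G (fib E i e) =
      ∑ a ∈ E.image (fun e => e i),
        (E.filter (fun e => e i = a)).card * G ((E.filter (fun e => e i = a)).card) := by
  rw [← Finset.sum_fiberwise_of_maps_to (g := fun e => e i) (t := E.image (fun e => e i))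
    (fun x hx => mem_image_of_mem _ hx)]
  apply Finset.sum_congr rfl
  intro a _
  have h1 : ∀ e ∈ E.filter (fun e => e i = a),
      G (fib E i e) = G ((E.filter (fun e => e i = a)).card) := by
    intro e he
    simp only [fib]
    rw [(mem_filter.mp he).2]
  rw [Finset.sum_congr rfl h1, Finset.sum_const, smul_eq_mul]

/-- In an intersecting family, the degrees of the vertices of an edge add up to at least
`|E| - 1 + r`. -/
lemma sum_fib_ge (E : Finset (Fin r → α)) (hint : ∀ e ∈ E, ∀ f ∈ E, ∃ i, e i = f i)
    {e : Fin r → α} (he : e ∈ E) : E.card + r ≤ (∑ i, fib E i e) + 1 := by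
  have hsub : E.erase e ⊆
      (univ : Finset (Fin r)).biUnion (fun i => (E.filter (fun f => f i = e i)).erase e) := by
    intro f hf
    rw [mem_erase] at hf
    obtain ⟨i, hi⟩ := hint e he f hf.2
    rw [mem_biUnion]
    refine ⟨i, mem_univ _, ?_⟩
    rw [mem_erase, mem_filter]
    exact ⟨hf.1, hf.2, hi.symm⟩
  have h1 : E.card - 1 ≤ ∑ i, (fib E i e - 1) := by
    calc E.card - 1 = (E.erase e).card := (card_erase_of_mem he).symm
      _ ≤ ((univ : Finset (Fin r)).biUnion
            (fun i => (E.filter (fun f => f i = e i)).erase e)).card := card_le_card hsub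
      _ ≤ ∑ i, ((E.filter (fun f => f i = e i)).erase e).card := card_biUnion_le
      _ = ∑ i, (fib E i e - 1) := by
          apply Finset.sum_congr rfl
          intro i _
          rw [card_erase_of_mem (by simp [he])]
          rfl
  have h2 : ∑ i : Fin r, (fib E i e - 1) + r = ∑ i : Fin r, fib E i e := by
    have : ∑ i : Fin r, (fib E i e - 1 + 1) = ∑ i : Fin r, fib E i e := by
      apply Finset.sum_congr rfl
      intro i _
      have := fib_pos he i
      omega
    rw [← this, Finset.sum_add_distrib]
    simp
  have hpos : 0 < E.card := Finset.card_pos.mpr ⟨e, he⟩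
  omega

/-- Pairing cover: an intersecting family `L` has a vertex cover of size at most `(|L|+1)/2`. -/
lemma pairing_cover (hr : 0 < r) (L : Finset (Fin r → α))
    (hint : ∀ e ∈ L, ∀ f ∈ L, ∃ i, e i = f i) :
    ∃ C : Finset (Fin r × α), (∀ e ∈ L, ∃ i, (i, e i) ∈ C) ∧ 2 * C.card ≤ L.card + 1 := by
  induction' h : L.card using Nat.strong_induction_on with n ih generalizing L
  rcases L.eq_empty_or_nonempty with rfl | ⟨e, he⟩
  · exact ⟨∅, by simp, by simp⟩
  · by_cases hex : ∃ f ∈ L, f ≠ e
    · obtain ⟨f, hf, hfe⟩ := hex
      obtain ⟨i, hi⟩ := hint e he f hf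
      obtain ⟨L', hL'⟩ : ∃ L', L' = L.filter (fun g => g i ≠ e i) := ⟨_, rfl⟩
      have hL'sub : L' ⊆ (L.erase e).erase f := by
        intro g hg
        rw [hL', mem_filter] at hg
        rw [mem_erase, mem_erase]
        refine ⟨?_, ?_, hg.1⟩
        · intro hgf; rw [hgf] at hg; exact hg.2 hi.symm
        · intro hge; rw [hge] at hg; exact hg.2 rfl
      have hcard : L'.card + 2 ≤ L.card := by
        have h1 := card_le_card hL'sub
        rw [card_erase_of_mem (mem_erase.mpr ⟨hfe, hf⟩), card_erase_of_mem he] at h1
        have h2 : 2 ≤ L.card := by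
          have : ({e, f} : Finset (Fin r → α)) ⊆ L := by
            intro g hg
            rcases mem_insert.mp hg with hg | hg
            · rw [hg]; exact he
            · rw [mem_singleton.mp hg]; exact hf
          have h3 := card_le_card this
          rw [card_pair (Ne.symm hfe)] at h3
          exact h3
        omega
      have hint' : ∀ g ∈ L', ∀ g' ∈ L', ∃ j, g j = g' j := by
        intro g hg g' hg'
        rw [hL', mem_filter] at hg hg'
        exact hint g hg.1 g' hg'.1
      obtain ⟨C', hC'cov, hC'card⟩ := ih L'.card (by omega) L' hint' rfl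
      refine ⟨insert (i, e i) C', ?_, ?_⟩
      · intro g hg
        by_cases hgi : g i = e i
        · exact ⟨i, by rw [hgi]; exact mem_insert_self _ _⟩
        · have : g ∈ L' := by rw [hL', mem_filter]; exact ⟨hg, hgi⟩
          obtain ⟨j, hj⟩ := hC'cov g this
          exact ⟨j, mem_insert_of_mem hj⟩
      · have := card_insert_le (i, e i) C'
        omega
    · have hL : L = {e} := by
        ext g
        rw [mem_singleton]
        constructor
        · intro hg
          by_contra hge
          exact hex ⟨g, hg, hge⟩
        · intro hg; rw [hg]; exact he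
      refine ⟨{(⟨0, hr⟩, e ⟨0, hr⟩)}, ?_, ?_⟩
      · intro g hg
        rw [hL, mem_singleton] at hg
        exact ⟨⟨0, hr⟩, by rw [hg]; exact mem_singleton_self _⟩
      · have h1 : L.card = 1 := by rw [hL]; exact card_singleton _
        rw [card_singleton]
        omega

end Vale.Agent.Lib.P045
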