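import Mathlib
import Vale.Agent.Lib.P045.Counting

namespace Vale.Agent.Lib.P045

open Finset

variable {r : ℕ} {α : Type*} [DecidableEq α]

/-- weight function on degrees `1,...,5` -/
def wt (w1 w2 w3 w4 w5 : ℕ) (d : ℕ) : ℕ :=
  if d = 1 then w1 else if d = 2 then w2 else if d = 3 then w3 else if d = 4 then w4
  else if d = 5 then w5 else 0

/-- Cover from part `i`: heavy vertices (degree at least three) plus a pairing cover of the
light edges. -/
lemma part_cover (hr : 0 < r) (E : Finset (Fin r → α))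
    (hint : ∀ e ∈ E, ∀ f ∈ E, ∃ i, e i = f i) (i : Fin r) :
    ∃ C : Finset (Fin r × α), (∀ e ∈ E, ∃ j, (j, e j) ∈ C) ∧
      2 * C.card ≤ 2 * ((E.image (fun e => e i)).filter
          (fun a => 3 ≤ (E.filter (fun e => e i = a)).card)).card
        + (E.filter (fun e => fib E i e ≤ 2)).card + 1 := by
  obtain ⟨CL, hCL, hCLcard⟩ := pairing_cover hr (E.filter (fun e => fib E i e ≤ 2))
    (fun e he f hf => hint e (mem_filter.mp he).1 f (mem_filter.mp hf).1)
  refine ⟨((E.image (fun e => e i)).filter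
      (fun a => 3 ≤ (E.filter (fun e => e i = a)).card)).image (fun a => (i, a)) ∪ CL, ?_, ?_⟩
  · intro e he
    by_cases hlight : fib E i e ≤ 2
    · obtain ⟨j, hj⟩ := hCL e (mem_filter.mpr ⟨he, hlight⟩)
      exact ⟨j, mem_union_right _ hj⟩
    · refine ⟨i, mem_union_left _ (mem_image_of_mem _ ?_)⟩
      rw [mem_filter]
      refine ⟨mem_image_of_mem _ he, ?_⟩
      have : fib E i e = (E.filter (fun f => f i = e i)).card := rfl
      omega
  · have h1 := card_union_le
      (((E.image (fun e => e i)).filter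
        (fun a => 3 ≤ (E.filter (fun e => e i = a)).card)).image (fun a => (i, a))) CL
    have h2 := card_image_le (s := (E.image (fun e => e i)).filter
        (fun a => 3 ≤ (E.filter (fun e => e i = a)).card)) (f := fun a => (i, a))
    omega

/-- Degree statistics of part `i`. -/
lemma part_stats (E : Finset (Fin r → α))
    (hdeg : ∀ (i : Fin r) (a : α), (E.filter (fun e => e i = a)).card ≤ 5) (i : Fin r)
    (w1 w2 w3 w4 w5 : ℕ) :
    ∃ x1 x2 x3 x4 x5 : ℕ,
      E.card = x1 + 2 * x2 + 3 * x3 + 4 * x4 + 5 * x5 ∧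
      ((E.image (fun e => e i)).filter
          (fun a => 3 ≤ (E.filter (fun e => e i = a)).card)).card = x3 + x4 + x5 ∧
      (E.filter (fun e => fib E i e ≤ 2)).card = x1 + 2 * x2 ∧
      ∑ e ∈ E, wt w1 w2 w3 w4 w5 (fib E i e)
        = w1 * x1 + 2 * w2 * x2 + 3 * w3 * x3 + 4 * w4 * x4 + 5 * w5 * x5 := by
  obtain ⟨S, hS⟩ : ∃ S, S = E.image (fun e => e i) := ⟨_, rfl⟩
  obtain ⟨cnt, hcnt⟩ : ∃ cnt : α → ℕ, cnt = fun a => (E.filter (fun e => e i = a)).card :=
    ⟨_, rfl⟩
  have hrange : ∀ a ∈ S, 1 ≤ cnt a ∧ cnt a ≤ 5 := by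
    intro a ha
    rw [hS] at ha
    obtain ⟨e, he, rfl⟩ := mem_image.mp ha
    rw [hcnt]
    exact ⟨Finset.card_pos.mpr ⟨e, by simp [he]⟩, hdeg i _⟩
  refine ⟨(S.filter (fun a => cnt a = 1)).card, (S.filter (fun a => cnt a = 2)).card,
    (S.filter (fun a => cnt a = 3)).card, (S.filter (fun a => cnt a = 4)).card,
    (S.filter (fun a => cnt a = 5)).card, ?_, ?_, ?_, ?_⟩
  · have h1 : E.card = ∑ a ∈ S, cnt a := by
      rw [hS, hcnt]
      exact Finset.card_eq_sum_card_image (fun e => e i) E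
    rw [h1, sum_by_value S cnt hrange (fun d => d)]
    ring
  · have h1 : ((E.image (fun e => e i)).filter
          (fun a => 3 ≤ (E.filter (fun e => e i = a)).card)).card
        = ∑ a ∈ S, (fun d => if 3 ≤ d then 1 else 0) (cnt a) := by
      rw [hS, hcnt, Finset.card_filter]
    rw [h1, sum_by_value S cnt hrange (fun d => if 3 ≤ d then 1 else 0)]
    norm_num
  · have h1 : (E.filter (fun e => fib E i e ≤ 2)).card
        = ∑ a ∈ S, (fun d => d * (if d ≤ 2 then 1 else 0)) (cnt a) := by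
      rw [Finset.card_filter, sum_fib_eq E i (fun d => if d ≤ 2 then 1 else 0), hS, hcnt]
    rw [h1, sum_by_value S cnt hrange (fun d => d * (if d ≤ 2 then 1 else 0))]
    norm_num
    ring
  · have h1 : ∑ e ∈ E, wt w1 w2 w3 w4 w5 (fib E i e)
        = ∑ a ∈ S, (fun d => d * wt w1 w2 w3 w4 w5 d) (cnt a) := by
      rw [sum_fib_eq E i (wt w1 w2 w3 w4 w5), hS, hcnt]
    rw [h1, sum_by_value S cnt hrange (fun d => d * wt w1 w2 w3 w4 w5 d)]
    simp only [wt]
    norm_num
    ring

/-- Degree statistics of an edge. -/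
lemma edge_stats (E : Finset (Fin r → α))
    (hdeg : ∀ (i : Fin r) (a : α), (E.filter (fun e => e i = a)).card ≤ 5)
    {e : Fin r → α} (he : e ∈ E) (w1 w2 w3 w4 w5 : ℕ) :
    ∃ n1 n2 n3 n4 n5 : ℕ,
      r = n1 + n2 + n3 + n4 + n5 ∧
      ∑ i, fib E i e = n1 + 2 * n2 + 3 * n3 + 4 * n4 + 5 * n5 ∧
      ∑ i, wt w1 w2 w3 w4 w5 (fib E i e)
        = w1 * n1 + w2 * n2 + w3 * n3 + w4 * n4 + w5 * n5 := by
  have hrange : ∀ i ∈ (univ : Finset (Fin r)), 1 ≤ fib E i e ∧ fib E i e ≤ 5 :=
    fun i _ => ⟨fib_pos he i, hdeg i (e i)⟩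
  refine ⟨((univ : Finset (Fin r)).filter (fun i => fib E i e = 1)).card,
    ((univ : Finset (Fin r)).filter (fun i => fib E i e = 2)).card,
    ((univ : Finset (Fin r)).filter (fun i => fib E i e = 3)).card,
    ((univ : Finset (Fin r)).filter (fun i => fib E i e = 4)).card,
    ((univ : Finset (Fin r)).filter (fun i => fib E i e = 5)).card, ?_, ?_, ?_⟩
  · have h1 : r = ∑ i : Fin r, (fun _ => 1) (fib E i e) := by simp
    have h2 := sum_by_value (univ : Finset (Fin r)) (fun i => fib E i e) hrange (fun _ => 1)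
    rw [h2] at h1
    omega
  · have h2 := sum_by_value (univ : Finset (Fin r)) (fun i => fib E i e) hrange (fun d => d)
    rw [h2]
    ring
  · have h2 := sum_by_value (univ : Finset (Fin r)) (fun i => fib E i e) hrange
      (wt w1 w2 w3 w4 w5)
    rw [h2]
    simp only [wt]
    norm_num
    ring

end Vale.Agent.Lib.P045
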