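import Mathlib
import Vale.Agent.Lib.P045.Cert

namespace Vale.Agent.Lib.P045

open Finset

variable {r : ℕ} {α : Type*} [DecidableEq α]

/-- Weighted double counting: a numerical certificate `(w, lo, hi)` forces a cover of size
at most `r - 1` in an intersecting family of maximum degree at most five. -/
theorem cert_lemma (hr : 0 < r) (E : Finset (Fin r → α))
    (hint : ∀ e ∈ E, ∀ f ∈ E, ∃ i, e i = f i)
    (hdeg : ∀ (i : Fin r) (a : α), (E.filter (fun e => e i = a)).card ≤ 5)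
    (w1 w2 w3 w4 w5 lo hi : ℕ)
    (hE : ∀ n1 n2 n3 n4 n5 : ℕ, r = n1 + n2 + n3 + n4 + n5 →
      E.card + r ≤ n1 + 2 * n2 + 3 * n3 + 4 * n4 + 5 * n5 + 1 →
      lo ≤ w1 * n1 + w2 * n2 + w3 * n3 + w4 * n4 + w5 * n5)
    (hP : ∀ x1 x2 x3 x4 x5 : ℕ, E.card = x1 + 2 * x2 + 3 * x3 + 4 * x4 + 5 * x5 →
      2 * r ≤ 2 * (x3 + x4 + x5) + (x1 + 2 * x2) + 1 →
      w1 * x1 + 2 * w2 * x2 + 3 * w3 * x3 + 4 * w4 * x4 + 5 * w5 * x5 ≤ hi)
    (hnum : r * hi < E.card * lo) :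
    ∃ C : Finset (Fin r × α), (∀ e ∈ E, ∃ i, (i, e i) ∈ C) ∧ C.card ≤ r - 1 := by
  by_contra hcon
  have hno : ∀ C : Finset (Fin r × α), (∀ e ∈ E, ∃ i, (i, e i) ∈ C) → r ≤ C.card := by
    intro C hC
    by_contra h
    exact hcon ⟨C, hC, by omega⟩
  have hpart : ∀ i : Fin r, ∑ e ∈ E, wt w1 w2 w3 w4 w5 (fib E i e) ≤ hi := by
    intro i
    obtain ⟨C, hC, hCcard⟩ := part_cover hr E hint i
    obtain ⟨x1, x2, x3, x4, x5, h1, h2, h3, h4⟩ := part_stats E hdeg i w1 w2 w3 w4 w5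
    have h5 := hno C hC
    rw [h4]
    apply hP x1 x2 x3 x4 x5 h1
    rw [h2, h3] at hCcard
    omega
  have hedge : ∀ e ∈ E, lo ≤ ∑ i, wt w1 w2 w3 w4 w5 (fib E i e) := by
    intro e he
    obtain ⟨n1, n2, n3, n4, n5, h1, h2, h3⟩ := edge_stats E hdeg he w1 w2 w3 w4 w5
    have h4 := sum_fib_ge E hint he
    rw [h3]
    apply hE n1 n2 n3 n4 n5 h1
    rw [h2] at h4
    exact h4
  have h1 : E.card * lo ≤ ∑ e ∈ E, ∑ i, wt w1 w2 w3 w4 w5 (fib E i e) := by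
    calc E.card * lo = ∑ _e ∈ E, lo := by simp
      _ ≤ _ := Finset.sum_le_sum hedge
  have h2 : ∑ e ∈ E, ∑ i, wt w1 w2 w3 w4 w5 (fib E i e)
      = ∑ i, ∑ e ∈ E, wt w1 w2 w3 w4 w5 (fib E i e) := Finset.sum_comm
  have h3 : ∑ i : Fin r, ∑ e ∈ E, wt w1 w2 w3 w4 w5 (fib E i e) ≤ r * hi := by
    calc ∑ i : Fin r, ∑ e ∈ E, wt w1 w2 w3 w4 w5 (fib E i e)
        ≤ ∑ _i : Fin r, hi := Finset.sum_le_sum (fun i _ => hpart i)
      _ = r * hi := by simp
  omega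

/-- The linear-programming certificate, valid whenever
`(6r+1) m + 5r < m^2 + 10 r^2`. -/
theorem lp_case (hr : 0 < r) (E : Finset (Fin r → α))
    (hint : ∀ e ∈ E, ∀ f ∈ E, ∃ i, e i = f i)
    (hdeg : ∀ (i : Fin r) (a : α), (E.filter (fun e => e i = a)).card ≤ 5)
    (hlp : (6 * r + 1) * E.card + 5 * r < E.card * E.card + 10 * r * r) :
    ∃ C : Finset (Fin r × α), (∀ e ∈ E, ∃ i, (i, e i) ∈ C) ∧ C.card ≤ r - 1 := by
  rcases Nat.eq_zero_or_pos E.card with h0 | hpos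
  · refine ⟨∅, ?_, by simp⟩
    intro e he
    rw [Finset.card_eq_zero] at h0
    rw [h0] at he
    simp at he
  · apply cert_lemma hr E hint hdeg 1 2 3 4 5 (E.card + r - 1) (7 * E.card + 5 - 10 * r)
    · intro n1 n2 n3 n4 n5 h1 h2
      omega
    · intro x1 x2 x3 x4 x5 h1 h2
      omega
    · rcases Nat.lt_or_ge (7 * E.card + 5) (10 * r) with h | h
      · have h1 : 7 * E.card + 5 - 10 * r = 0 := by omega
        rw [h1, Nat.mul_zero]
        apply Nat.mul_pos hpos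
        omega
      · obtain ⟨k, hk⟩ : ∃ k, 7 * E.card + 5 = 10 * r + k := ⟨7 * E.card + 5 - 10 * r, by omega⟩
        obtain ⟨j, hj⟩ : ∃ j, E.card + r = j + 1 := ⟨E.card + r - 1, by omega⟩
        have h1 : 7 * E.card + 5 - 10 * r = k := by omega
        have h2 : E.card + r - 1 = j := by omega
        rw [h1, h2]
        have e1 : r * (7 * E.card + 5) = r * (10 * r + k) := by rw [hk]
        have e2 : E.card * (E.card + r) = E.card * (j + 1) := by rw [hj]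
        nlinarith [e1, e2, hlp]

end Vale.Agent.Lib.P045
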