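import Mathlib
import Vale.Agent.Lib.P045.CertLemma

namespace Vale.Agent.Lib.P045

open Finset

lemma certE_6_15 (n1 n2 n3 n4 n5 : ℕ) (h1 : 6 = n1 + n2 + n3 + n4 + n5)
    (h2 : 15 + 6 ≤ n1 + 2 * n2 + 3 * n3 + 4 * n4 + 5 * n5 + 1) :
    8 ≤ 0 * n1 + 0 * n2 + 1 * n3 + 2 * n4 + 3 * n5 := by
  have h5 : n5 ≤ 6 := by omega
  have h4 : n4 ≤ 6 := by omega
  interval_cases n5 <;> interval_cases n4 <;> omega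

lemma certP_6_15 (x1 x2 x3 x4 x5 : ℕ) (h1 : 15 = x1 + 2 * x2 + 3 * x3 + 4 * x4 + 5 * x5)
    (h2 : 2 * 6 ≤ 2 * (x3 + x4 + x5) + (x1 + 2 * x2) + 1) :
    0 * x1 + 2 * 0 * x2 + 3 * 1 * x3 + 4 * 2 * x4 + 5 * 3 * x5 ≤ 18 := by
  have h5 : x5 ≤ 3 := by omega
  have h4 : x4 ≤ 3 := by omega
  interval_cases x5 <;> interval_cases x4 <;> omega

lemma certE_6_16 (n1 n2 n3 n4 n5 : ℕ) (h1 : 6 = n1 + n2 + n3 + n4 + n5)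
    (h2 : 16 + 6 ≤ n1 + 2 * n2 + 3 * n3 + 4 * n4 + 5 * n5 + 1) :
    9 ≤ 0 * n1 + 0 * n2 + 1 * n3 + 2 * n4 + 3 * n5 := by
  have h5 : n5 ≤ 6 := by omega
  have h4 : n4 ≤ 6 := by omega
  interval_cases n5 <;> interval_cases n4 <;> omega

lemma certP_6_16 (x1 x2 x3 x4 x5 : ℕ) (h1 : 16 = x1 + 2 * x2 + 3 * x3 + 4 * x4 + 5 * x5)
    (h2 : 2 * 6 ≤ 2 * (x3 + x4 + x5) + (x1 + 2 * x2) + 1) :
    0 * x1 + 2 * 0 * x2 + 3 * 1 * x3 + 4 * 2 * x4 + 5 * 3 * x5 ≤ 23 := by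
  have h5 : x5 ≤ 3 := by omega
  have h4 : x4 ≤ 4 := by omega
  interval_cases x5 <;> interval_cases x4 <;> omega

lemma certE_6_17 (n1 n2 n3 n4 n5 : ℕ) (h1 : 6 = n1 + n2 + n3 + n4 + n5)
    (h2 : 17 + 6 ≤ n1 + 2 * n2 + 3 * n3 + 4 * n4 + 5 * n5 + 1) :
    20 ≤ 0 * n1 + 1 * n2 + 3 * n3 + 4 * n4 + 5 * n5 := by
  have h5 : n5 ≤ 6 := by omega
  have h4 : n4 ≤ 6 := by omega
  interval_cases n5 <;> interval_cases n4 <;> omega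

lemma certP_6_17 (x1 x2 x3 x4 x5 : ℕ) (h1 : 17 = x1 + 2 * x2 + 3 * x3 + 4 * x4 + 5 * x5)
    (h2 : 2 * 6 ≤ 2 * (x3 + x4 + x5) + (x1 + 2 * x2) + 1) :
    0 * x1 + 2 * 1 * x2 + 3 * 3 * x3 + 4 * 4 * x4 + 5 * 5 * x5 ≤ 56 := by
  have h5 : x5 ≤ 3 := by omega
  have h4 : x4 ≤ 4 := by omega
  interval_cases x5 <;> interval_cases x4 <;> omega

lemma certE_6_18 (n1 n2 n3 n4 n5 : ℕ) (h1 : 6 = n1 + n2 + n3 + n4 + n5)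
    (h2 : 18 + 6 ≤ n1 + 2 * n2 + 3 * n3 + 4 * n4 + 5 * n5 + 1) :
    17 ≤ 0 * n1 + 1 * n2 + 2 * n3 + 3 * n4 + 4 * n5 := by
  have h5 : n5 ≤ 6 := by omega
  have h4 : n4 ≤ 6 := by omega
  interval_cases n5 <;> interval_cases n4 <;> omega

lemma certP_6_18 (x1 x2 x3 x4 x5 : ℕ) (h1 : 18 = x1 + 2 * x2 + 3 * x3 + 4 * x4 + 5 * x5)
    (h2 : 2 * 6 ≤ 2 * (x3 + x4 + x5) + (x1 + 2 * x2) + 1) :
    0 * x1 + 2 * 1 * x2 + 3 * 2 * x3 + 4 * 3 * x4 + 5 * 4 * x5 ≤ 50 := by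
  have h5 : x5 ≤ 3 := by omega
  have h4 : x4 ≤ 4 := by omega
  interval_cases x5 <;> interval_cases x4 <;> omega

lemma certE_6_19 (n1 n2 n3 n4 n5 : ℕ) (h1 : 6 = n1 + n2 + n3 + n4 + n5)
    (h2 : 19 + 6 ≤ n1 + 2 * n2 + 3 * n3 + 4 * n4 + 5 * n5 + 1) :
    18 ≤ 0 * n1 + 1 * n2 + 2 * n3 + 3 * n4 + 4 * n5 := by
  have h5 : n5 ≤ 6 := by omega
  have h4 : n4 ≤ 6 := by omega
  interval_cases n5 <;> interval_cases n4 <;> omega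

lemma certP_6_19 (x1 x2 x3 x4 x5 : ℕ) (h1 : 19 = x1 + 2 * x2 + 3 * x3 + 4 * x4 + 5 * x5)
    (h2 : 2 * 6 ≤ 2 * (x3 + x4 + x5) + (x1 + 2 * x2) + 1) :
    0 * x1 + 2 * 1 * x2 + 3 * 2 * x3 + 4 * 3 * x4 + 5 * 4 * x5 ≤ 56 := by
  have h5 : x5 ≤ 3 := by omega
  have h4 : x4 ≤ 4 := by omega
  interval_cases x5 <;> interval_cases x4 <;> omega

lemma certE_6_20 (n1 n2 n3 n4 n5 : ℕ) (h1 : 6 = n1 + n2 + n3 + n4 + n5)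
    (h2 : 20 + 6 ≤ n1 + 2 * n2 + 3 * n3 + 4 * n4 + 5 * n5 + 1) :
    24 ≤ 0 * n1 + 1 * n2 + 3 * n3 + 4 * n4 + 5 * n5 := by
  have h5 : n5 ≤ 6 := by omega
  have h4 : n4 ≤ 6 := by omega
  interval_cases n5 <;> interval_cases n4 <;> omega

lemma certP_6_20 (x1 x2 x3 x4 x5 : ℕ) (h1 : 20 = x1 + 2 * x2 + 3 * x3 + 4 * x4 + 5 * x5)
    (h2 : 2 * 6 ≤ 2 * (x3 + x4 + x5) + (x1 + 2 * x2) + 1) :
    0 * x1 + 2 * 1 * x2 + 3 * 3 * x3 + 4 * 4 * x4 + 5 * 5 * x5 ≤ 79 := by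
  have h5 : x5 ≤ 4 := by omega
  have h4 : x4 ≤ 5 := by omega
  interval_cases x5 <;> interval_cases x4 <;> omega

lemma certE_6_21 (n1 n2 n3 n4 n5 : ℕ) (h1 : 6 = n1 + n2 + n3 + n4 + n5)
    (h2 : 21 + 6 ≤ n1 + 2 * n2 + 3 * n3 + 4 * n4 + 5 * n5 + 1) :
    14 ≤ 0 * n1 + 0 * n2 + 1 * n3 + 2 * n4 + 3 * n5 := by
  have h5 : n5 ≤ 6 := by omega
  have h4 : n4 ≤ 6 := by omega
  interval_cases n5 <;> interval_cases n4 <;> omega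

lemma certP_6_21 (x1 x2 x3 x4 x5 : ℕ) (h1 : 21 = x1 + 2 * x2 + 3 * x3 + 4 * x4 + 5 * x5)
    (h2 : 2 * 6 ≤ 2 * (x3 + x4 + x5) + (x1 + 2 * x2) + 1) :
    0 * x1 + 2 * 0 * x2 + 3 * 1 * x3 + 4 * 2 * x4 + 5 * 3 * x5 ≤ 48 := by
  have h5 : x5 ≤ 4 := by omega
  have h4 : x4 ≤ 5 := by omega
  interval_cases x5 <;> interval_cases x4 <;> omega

lemma certE_6_22 (n1 n2 n3 n4 n5 : ℕ) (h1 : 6 = n1 + n2 + n3 + n4 + n5)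
    (h2 : 22 + 6 ≤ n1 + 2 * n2 + 3 * n3 + 4 * n4 + 5 * n5 + 1) :
    15 ≤ 0 * n1 + 0 * n2 + 1 * n3 + 2 * n4 + 3 * n5 := by
  have h5 : n5 ≤ 6 := by omega
  have h4 : n4 ≤ 6 := by omega
  interval_cases n5 <;> interval_cases n4 <;> omega

lemma certP_6_22 (x1 x2 x3 x4 x5 : ℕ) (h1 : 22 = x1 + 2 * x2 + 3 * x3 + 4 * x4 + 5 * x5)
    (h2 : 2 * 6 ≤ 2 * (x3 + x4 + x5) + (x1 + 2 * x2) + 1) :
    0 * x1 + 2 * 0 * x2 + 3 * 1 * x3 + 4 * 2 * x4 + 5 * 3 * x5 ≤ 53 := by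
  have h5 : x5 ≤ 4 := by omega
  have h4 : x4 ≤ 5 := by omega
  interval_cases x5 <;> interval_cases x4 <;> omega

lemma certE_7_19 (n1 n2 n3 n4 n5 : ℕ) (h1 : 7 = n1 + n2 + n3 + n4 + n5)
    (h2 : 19 + 7 ≤ n1 + 2 * n2 + 3 * n3 + 4 * n4 + 5 * n5 + 1) :
    15 ≤ 0 * n1 + 0 * n2 + 2 * n3 + 3 * n4 + 4 * n5 := by
  have h5 : n5 ≤ 7 := by omega
  have h4 : n4 ≤ 7 := by omega
  interval_cases n5 <;> interval_cases n4 <;> omega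

lemma certP_7_19 (x1 x2 x3 x4 x5 : ℕ) (h1 : 19 = x1 + 2 * x2 + 3 * x3 + 4 * x4 + 5 * x5)
    (h2 : 2 * 7 ≤ 2 * (x3 + x4 + x5) + (x1 + 2 * x2) + 1) :
    0 * x1 + 2 * 0 * x2 + 3 * 2 * x3 + 4 * 3 * x4 + 5 * 4 * x5 ≤ 40 := by
  have h5 : x5 ≤ 3 := by omega
  have h4 : x4 ≤ 4 := by omega
  interval_cases x5 <;> interval_cases x4 <;> omega

lemma certE_7_20 (n1 n2 n3 n4 n5 : ℕ) (h1 : 7 = n1 + n2 + n3 + n4 + n5)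
    (h2 : 20 + 7 ≤ n1 + 2 * n2 + 3 * n3 + 4 * n4 + 5 * n5 + 1) :
    12 ≤ 0 * n1 + 0 * n2 + 1 * n3 + 2 * n4 + 3 * n5 := by
  have h5 : n5 ≤ 7 := by omega
  have h4 : n4 ≤ 7 := by omega
  interval_cases n5 <;> interval_cases n4 <;> omega

lemma certP_7_20 (x1 x2 x3 x4 x5 : ℕ) (h1 : 20 = x1 + 2 * x2 + 3 * x3 + 4 * x4 + 5 * x5)
    (h2 : 2 * 7 ≤ 2 * (x3 + x4 + x5) + (x1 + 2 * x2) + 1) :
    0 * x1 + 2 * 0 * x2 + 3 * 1 * x3 + 4 * 2 * x4 + 5 * 3 * x5 ≤ 33 := by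
  have h5 : x5 ≤ 4 := by omega
  have h4 : x4 ≤ 5 := by omega
  interval_cases x5 <;> interval_cases x4 <;> omega

lemma certE_7_21 (n1 n2 n3 n4 n5 : ℕ) (h1 : 7 = n1 + n2 + n3 + n4 + n5)
    (h2 : 21 + 7 ≤ n1 + 2 * n2 + 3 * n3 + 4 * n4 + 5 * n5 + 1) :
    13 ≤ 0 * n1 + 0 * n2 + 1 * n3 + 2 * n4 + 3 * n5 := by
  have h5 : n5 ≤ 7 := by omega
  have h4 : n4 ≤ 7 := by omega
  interval_cases n5 <;> interval_cases n4 <;> omega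

lemma certP_7_21 (x1 x2 x3 x4 x5 : ℕ) (h1 : 21 = x1 + 2 * x2 + 3 * x3 + 4 * x4 + 5 * x5)
    (h2 : 2 * 7 ≤ 2 * (x3 + x4 + x5) + (x1 + 2 * x2) + 1) :
    0 * x1 + 2 * 0 * x2 + 3 * 1 * x3 + 4 * 2 * x4 + 5 * 3 * x5 ≤ 38 := by
  have h5 : x5 ≤ 4 := by omega
  have h4 : x4 ≤ 5 := by omega
  interval_cases x5 <;> interval_cases x4 <;> omega

lemma certE_7_22 (n1 n2 n3 n4 n5 : ℕ) (h1 : 7 = n1 + n2 + n3 + n4 + n5)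
    (h2 : 22 + 7 ≤ n1 + 2 * n2 + 3 * n3 + 4 * n4 + 5 * n5 + 1) :
    24 ≤ 0 * n1 + 0 * n2 + 2 * n3 + 4 * n4 + 5 * n5 := by
  have h5 : n5 ≤ 7 := by omega
  have h4 : n4 ≤ 7 := by omega
  interval_cases n5 <;> interval_cases n4 <;> omega

lemma certP_7_22 (x1 x2 x3 x4 x5 : ℕ) (h1 : 22 = x1 + 2 * x2 + 3 * x3 + 4 * x4 + 5 * x5)
    (h2 : 2 * 7 ≤ 2 * (x3 + x4 + x5) + (x1 + 2 * x2) + 1) :
    0 * x1 + 2 * 0 * x2 + 3 * 2 * x3 + 4 * 4 * x4 + 5 * 5 * x5 ≤ 75 := by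
  have h5 : x5 ≤ 4 := by omega
  have h4 : x4 ≤ 5 := by omega
  interval_cases x5 <;> interval_cases x4 <;> omega

lemma certE_7_23 (n1 n2 n3 n4 n5 : ℕ) (h1 : 7 = n1 + n2 + n3 + n4 + n5)
    (h2 : 23 + 7 ≤ n1 + 2 * n2 + 3 * n3 + 4 * n4 + 5 * n5 + 1) :
    15 ≤ 0 * n1 + 0 * n2 + 1 * n3 + 2 * n4 + 3 * n5 := by
  have h5 : n5 ≤ 7 := by omega
  have h4 : n4 ≤ 7 := by omega
  interval_cases n5 <;> interval_cases n4 <;> omega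

lemma certP_7_23 (x1 x2 x3 x4 x5 : ℕ) (h1 : 23 = x1 + 2 * x2 + 3 * x3 + 4 * x4 + 5 * x5)
    (h2 : 2 * 7 ≤ 2 * (x3 + x4 + x5) + (x1 + 2 * x2) + 1) :
    0 * x1 + 2 * 0 * x2 + 3 * 1 * x3 + 4 * 2 * x4 + 5 * 3 * x5 ≤ 48 := by
  have h5 : x5 ≤ 4 := by omega
  have h4 : x4 ≤ 5 := by omega
  interval_cases x5 <;> interval_cases x4 <;> omega

lemma certE_7_24 (n1 n2 n3 n4 n5 : ℕ) (h1 : 7 = n1 + n2 + n3 + n4 + n5)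
    (h2 : 24 + 7 ≤ n1 + 2 * n2 + 3 * n3 + 4 * n4 + 5 * n5 + 1) :
    16 ≤ 0 * n1 + 0 * n2 + 1 * n3 + 2 * n4 + 3 * n5 := by
  have h5 : n5 ≤ 7 := by omega
  have h4 : n4 ≤ 7 := by omega
  interval_cases n5 <;> interval_cases n4 <;> omega

lemma certP_7_24 (x1 x2 x3 x4 x5 : ℕ) (h1 : 24 = x1 + 2 * x2 + 3 * x3 + 4 * x4 + 5 * x5)
    (h2 : 2 * 7 ≤ 2 * (x3 + x4 + x5) + (x1 + 2 * x2) + 1) :
    0 * x1 + 2 * 0 * x2 + 3 * 1 * x3 + 4 * 2 * x4 + 5 * 3 * x5 ≤ 53 := by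
  have h5 : x5 ≤ 4 := by omega
  have h4 : x4 ≤ 6 := by omega
  interval_cases x5 <;> interval_cases x4 <;> omega

lemma certE_8_24 (n1 n2 n3 n4 n5 : ℕ) (h1 : 8 = n1 + n2 + n3 + n4 + n5)
    (h2 : 24 + 8 ≤ n1 + 2 * n2 + 3 * n3 + 4 * n4 + 5 * n5 + 1) :
    23 ≤ 0 * n1 + 1 * n2 + 2 * n3 + 3 * n4 + 4 * n5 := by
  have h5 : n5 ≤ 8 := by omega
  have h4 : n4 ≤ 8 := by omega
  interval_cases n5 <;> interval_cases n4 <;> omega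

lemma certP_8_24 (x1 x2 x3 x4 x5 : ℕ) (h1 : 24 = x1 + 2 * x2 + 3 * x3 + 4 * x4 + 5 * x5)
    (h2 : 2 * 8 ≤ 2 * (x3 + x4 + x5) + (x1 + 2 * x2) + 1) :
    0 * x1 + 2 * 1 * x2 + 3 * 2 * x3 + 4 * 3 * x4 + 5 * 4 * x5 ≤ 68 := by
  have h5 : x5 ≤ 4 := by omega
  have h4 : x4 ≤ 6 := by omega
  interval_cases x5 <;> interval_cases x4 <;> omega

lemma certE_8_25 (n1 n2 n3 n4 n5 : ℕ) (h1 : 8 = n1 + n2 + n3 + n4 + n5)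
    (h2 : 25 + 8 ≤ n1 + 2 * n2 + 3 * n3 + 4 * n4 + 5 * n5 + 1) :
    16 ≤ 0 * n1 + 0 * n2 + 1 * n3 + 2 * n4 + 3 * n5 := by
  have h5 : n5 ≤ 8 := by omega
  have h4 : n4 ≤ 8 := by omega
  interval_cases n5 <;> interval_cases n4 <;> omega

lemma certP_8_25 (x1 x2 x3 x4 x5 : ℕ) (h1 : 25 = x1 + 2 * x2 + 3 * x3 + 4 * x4 + 5 * x5)
    (h2 : 2 * 8 ≤ 2 * (x3 + x4 + x5) + (x1 + 2 * x2) + 1) :
    0 * x1 + 2 * 0 * x2 + 3 * 1 * x3 + 4 * 2 * x4 + 5 * 3 * x5 ≤ 48 := by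
  have h5 : x5 ≤ 5 := by omega
  have h4 : x4 ≤ 6 := by omega
  interval_cases x5 <;> interval_cases x4 <;> omega

end Vale.Agent.Lib.P045
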