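import Mathlib
import Vale.Agent.Lib.P045.Degree

namespace Vale.Agent.Lib.P045

open Finset

variable {r : ℕ} {α : Type*} [DecidableEq α]

lemma fib_le {E : Finset (Fin r → α)} {D : ℕ}
    (hdeg : ∀ (i : Fin r) (a : α), (E.filter (fun e => e i = a)).card ≤ D)
    (i : Fin r) (e : Fin r → α) : fib E i e ≤ D := hdeg i (e i)

/-- key numeric inequality for maximum degree two -/
lemma num_two (r t : ℕ) (ht : t ≤ r) :
    ((r : ℚ) - t / 2) * (1 + t) ≤ r * ((r + 1) / 2) := by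
  obtain ⟨u, rfl⟩ := Nat.exists_eq_add_of_le ht
  push_cast
  have hu : (0 : ℚ) ≤ (u : ℚ) * ((u : ℚ) - 1) := by
    rcases Nat.eq_zero_or_pos u with rfl | hpos
    · simp
    · have : (1 : ℚ) ≤ u := by exact_mod_cast hpos
      have h0 : (0 : ℚ) ≤ u := by linarith
      exact mul_nonneg h0 (by linarith)
  nlinarith [hu]

/-- key numeric inequality for maximum degree three -/
lemma num_three (r s : ℕ) (hr : 6 ≤ r) :
    ((r : ℚ) - s / 3) * (1 + s) ≤ r * (r - 1) := by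
  rcases Nat.lt_or_ge r 7 with h7 | h7
  · have hr6 : r = 6 := by omega
    subst hr6
    have hs : (0 : ℚ) ≤ ((s : ℚ) - 8) * ((s : ℚ) - 9) := by
      rcases Nat.lt_or_ge s 9 with h | h
      · have h1 : (s : ℚ) ≤ 8 := by exact_mod_cast Nat.lt_succ_iff.mp h
        exact mul_nonneg_of_nonpos_of_nonpos (by linarith) (by linarith)
      · have h1 : (9 : ℚ) ≤ s := by exact_mod_cast h
        exact mul_nonneg (by linarith) (by linarith)
    push_cast
    nlinarith [hs]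
  · have h7' : (7 : ℚ) ≤ r := by exact_mod_cast h7
    nlinarith [sq_nonneg (2 * (s : ℚ) - 3 * r + 1), mul_nonneg (by linarith : (0:ℚ) ≤ (r:ℚ) - 7) (by linarith : (0:ℚ) ≤ (r:ℚ))]

theorem deg_two_main (hr : 1 ≤ r) (E : Finset (Fin r → α))
    (hdeg : ∀ (i : Fin r) (a : α), (E.filter (fun e => e i = a)).card ≤ 2) :
    ∃ (C : Finset (Fin r × α)) (M : Finset (Fin r → α)),
      (∀ e ∈ E, ∃ i, (i, e i) ∈ C) ∧ M ⊆ E ∧
      (∀ e ∈ M, ∀ f ∈ M, e ≠ f → ∀ i, e i ≠ f i) ∧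
      2 * C.card ≤ (r + 1) * M.card := by
  have hedge : ∀ e ∈ E, (∑ i, (1 : ℚ) / (fib E i e)) * (1 + ∑ i, ((fib E i e - 1 : ℕ) : ℚ))
      ≤ r * ((r + 1) / 2) := by
    intro e he
    have h1 : ∀ i : Fin r, (1 : ℚ) / (fib E i e) = 1 - ((fib E i e - 1 : ℕ) : ℚ) / 2 := by
      intro i
      have hp := fib_pos he i
      have hl := fib_le hdeg i e
      have : fib E i e = 1 ∨ fib E i e = 2 := by omega
      rcases this with h | h <;> rw [h] <;> norm_num
    have h2 : ∑ i : Fin r, (1 : ℚ) / (fib E i e)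
        = r - (∑ i : Fin r, ((fib E i e - 1 : ℕ) : ℚ)) / 2 := by
      rw [Finset.sum_congr rfl (fun i _ => h1 i), Finset.sum_sub_distrib, Finset.sum_const,
        Finset.card_univ, Fintype.card_fin, ← Finset.sum_div]
      simp
    have h3 : ∑ i : Fin r, (fib E i e - 1) ≤ r := by
      calc ∑ i : Fin r, (fib E i e - 1) ≤ ∑ _i : Fin r, 1 := by
            apply Finset.sum_le_sum
            intro i _
            have := fib_le hdeg i e
            omega
        _ = r := by simp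
    have h4 := num_two r (∑ i : Fin r, (fib E i e - 1)) h3
    rw [h2]
    push_cast at h4 ⊢
    exact h4
  obtain ⟨i, M, hME, hM, hle⟩ := exists_part_le (by omega) E ((r + 1) / 2) (by positivity) hedge
  obtain ⟨C, hC, hCcard⟩ := cover_of_part E i
  refine ⟨C, M, hC, hME, hM, ?_⟩
  rw [hCcard]
  have : (2 : ℚ) * ((E.image (fun e => e i)).card : ℚ) ≤ ((r : ℚ) + 1) * M.card := by linarith
  exact_mod_cast this

theorem deg_three_main (hr : 6 ≤ r) (E : Finset (Fin r → α))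
    (hdeg : ∀ (i : Fin r) (a : α), (E.filter (fun e => e i = a)).card ≤ 3) :
    ∃ (C : Finset (Fin r × α)) (M : Finset (Fin r → α)),
      (∀ e ∈ E, ∃ i, (i, e i) ∈ C) ∧ M ⊆ E ∧
      (∀ e ∈ M, ∀ f ∈ M, e ≠ f → ∀ i, e i ≠ f i) ∧
      C.card ≤ (r - 1) * M.card := by
  have hedge : ∀ e ∈ E, (∑ i, (1 : ℚ) / (fib E i e)) * (1 + ∑ i, ((fib E i e - 1 : ℕ) : ℚ))
      ≤ r * ((r : ℚ) - 1) := by
    intro e he
    have h1 : ∀ i : Fin r, (1 : ℚ) / (fib E i e) ≤ 1 - ((fib E i e - 1 : ℕ) : ℚ) / 3 := by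
      intro i
      have hp := fib_pos he i
      have hl := fib_le hdeg i e
      have : fib E i e = 1 ∨ fib E i e = 2 ∨ fib E i e = 3 := by omega
      rcases this with h | h | h <;> rw [h] <;> norm_num
    have h2 : ∑ i : Fin r, (1 : ℚ) / (fib E i e)
        ≤ r - (∑ i : Fin r, ((fib E i e - 1 : ℕ) : ℚ)) / 3 := by
      calc ∑ i : Fin r, (1 : ℚ) / (fib E i e)
          ≤ ∑ i : Fin r, (1 - ((fib E i e - 1 : ℕ) : ℚ) / 3) :=
            Finset.sum_le_sum (fun i _ => h1 i)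
        _ = r - (∑ i : Fin r, ((fib E i e - 1 : ℕ) : ℚ)) / 3 := by
            rw [Finset.sum_sub_distrib, Finset.sum_const,
              Finset.card_univ, Fintype.card_fin, ← Finset.sum_div]
            simp
    have h4 := num_three r (∑ i : Fin r, (fib E i e - 1)) hr
    have h5 : (0 : ℚ) ≤ 1 + ∑ i : Fin r, ((fib E i e - 1 : ℕ) : ℚ) := by positivity
    calc (∑ i, (1 : ℚ) / (fib E i e)) * (1 + ∑ i, ((fib E i e - 1 : ℕ) : ℚ))
        ≤ (r - (∑ i : Fin r, ((fib E i e - 1 : ℕ) : ℚ)) / 3)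
            * (1 + ∑ i, ((fib E i e - 1 : ℕ) : ℚ)) := mul_le_mul_of_nonneg_right h2 h5
      _ ≤ r * ((r : ℚ) - 1) := by
          push_cast at h4 ⊢
          exact h4
  have hr1 : (1 : ℚ) ≤ r := by exact_mod_cast (by omega : 1 ≤ r)
  obtain ⟨i, M, hME, hM, hle⟩ :=
    exists_part_le (by omega) E ((r : ℚ) - 1) (by linarith) hedge
  obtain ⟨C, hC, hCcard⟩ := cover_of_part E i
  refine ⟨C, M, hC, hME, hM, ?_⟩
  rw [hCcard]
  have h6 : ((r - 1 : ℕ) : ℚ) = (r : ℚ) - 1 := by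
    rw [Nat.cast_sub (by omega)]; simp
  have : ((E.image (fun e => e i)).card : ℚ) ≤ ((r - 1 : ℕ) : ℚ) * M.card := by
    rw [h6]; exact hle
  exact_mod_cast this

theorem deg_two_ryser (hr : 3 ≤ r) (E : Finset (Fin r → α))
    (hdeg : ∀ (i : Fin r) (a : α), (E.filter (fun e => e i = a)).card ≤ 2) :
    ∃ (C : Finset (Fin r × α)) (M : Finset (Fin r → α)),
      (∀ e ∈ E, ∃ i, (i, e i) ∈ C) ∧ M ⊆ E ∧
      (∀ e ∈ M, ∀ f ∈ M, e ≠ f → ∀ i, e i ≠ f i) ∧
      C.card ≤ (r - 1) * M.card ∧ 2 * C.card ≤ (r + 1) * M.card := by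
  obtain ⟨C, M, hC, hME, hM, h2⟩ := deg_two_main (by omega) E hdeg
  refine ⟨C, M, hC, hME, hM, ?_, h2⟩
  have h3 : (r + 1) * M.card ≤ 2 * ((r - 1) * M.card) := by
    rw [← mul_assoc]
    apply Nat.mul_le_mul_right
    omega
  omega

end Vale.Agent.Lib.P045
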