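import Mathlib
import Vale.Agent.Lib.P045.Counting

namespace Vale.Agent.Lib.P045

open Finset

variable {r : ℕ} {α : Type*} [DecidableEq α]

/-- In an intersecting family, an edge with a vertex of degree one yields a cover with `r - 1`
vertices: the other vertices of that edge. -/
lemma cover_of_deg_one (hr : 2 ≤ r) (E : Finset (Fin r → α))
    (hint : ∀ e ∈ E, ∀ f ∈ E, ∃ i, e i = f i)
    {e : Fin r → α} (he : e ∈ E) {i : Fin r} (hi : fib E i e = 1) :
    ∃ C : Finset (Fin r × α), (∀ f ∈ E, ∃ j, (j, f j) ∈ C) ∧ C.card ≤ r - 1 := by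
  refine ⟨((univ : Finset (Fin r)).erase i).image (fun j => (j, e j)), ?_, ?_⟩
  · intro f hf
    obtain ⟨j, hj⟩ := hint e he f hf
    by_cases hji : j = i
    · have hfe : f = e := by
        have h1 : (E.filter (fun g => g i = e i)).card = 1 := hi
        rw [Finset.card_eq_one] at h1
        obtain ⟨g, hg⟩ := h1
        have hf' : f ∈ E.filter (fun g => g i = e i) := by
          rw [mem_filter]; exact ⟨hf, by rw [← hji]; exact hj.symm⟩
        have he' : e ∈ E.filter (fun g => g i = e i) := by
          rw [mem_filter]; exact ⟨he, rfl⟩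
        rw [hg, mem_singleton] at hf' he'
        rw [hf', he']
      obtain ⟨j', hj'⟩ : ∃ j' : Fin r, j' ≠ i := by
        by_cases hi0 : i = ⟨0, by omega⟩
        · exact ⟨⟨1, by omega⟩, by rw [hi0]; simp [Fin.ext_iff]⟩
        · exact ⟨⟨0, by omega⟩, fun hh => hi0 hh.symm⟩
      refine ⟨j', ?_⟩
      rw [hfe]
      exact mem_image_of_mem _ (mem_erase.mpr ⟨hj', mem_univ _⟩)
    · refine ⟨j, ?_⟩
      rw [← hj]
      exact mem_image_of_mem _ (mem_erase.mpr ⟨hji, mem_univ _⟩)
  · calc (((univ : Finset (Fin r)).erase i).image (fun j => (j, e j))).card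
        ≤ ((univ : Finset (Fin r)).erase i).card := card_image_le
      _ = r - 1 := by rw [card_erase_of_mem (mem_univ _), card_univ, Fintype.card_fin]
      _ ≤ r - 1 := le_refl _

/-- In an intersecting family, an edge with two vertices of degree at most two yields a cover
with at most `r - 1` vertices: the other `r - 2` vertices of that edge, plus one vertex common
to the (at most two) further edges through the two low vertices. -/
lemma cover_of_two_low (hr : 3 ≤ r) (E : Finset (Fin r → α))
    (hint : ∀ e ∈ E, ∀ f ∈ E, ∃ i, e i = f i)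
    {e : Fin r → α} (he : e ∈ E) {i j : Fin r} (hij : i ≠ j)
    (hi : fib E i e ≤ 2) (hj : fib E j e ≤ 2) :
    ∃ C : Finset (Fin r × α), (∀ f ∈ E, ∃ k, (k, f k) ∈ C) ∧ C.card ≤ r - 1 := by
  obtain ⟨Si, hSi⟩ : ∃ S, S = (E.filter (fun g => g i = e i)).erase e := ⟨_, rfl⟩
  obtain ⟨Sj, hSj⟩ : ∃ S, S = (E.filter (fun g => g j = e j)).erase e := ⟨_, rfl⟩
  have hSi1 : Si.card ≤ 1 := by
    rw [hSi, card_erase_of_mem (by simp [he])]
    have : (E.filter (fun g => g i = e i)).card ≤ 2 := hi
    omega
  have hSj1 : Sj.card ≤ 1 := by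
    rw [hSj, card_erase_of_mem (by simp [he])]
    have : (E.filter (fun g => g j = e j)).card ≤ 2 := hj
    omega
  have hx : ∃ x : Fin r × α, (∀ f ∈ Si, f x.1 = x.2) ∧ (∀ f ∈ Sj, f x.1 = x.2) := by
    rcases Si.eq_empty_or_nonempty with hSie | ⟨f, hf⟩
    · refine ⟨(j, e j), ?_, ?_⟩
      · intro f hf; rw [hSie] at hf; simp at hf
      · intro f hf; rw [hSj, mem_erase, mem_filter] at hf; exact hf.2.2
    · rcases Sj.eq_empty_or_nonempty with hSje | ⟨g, hg⟩
      · refine ⟨(i, e i), ?_, ?_⟩
        · intro f' hf'; rw [hSi, mem_erase, mem_filter] at hf'; exact hf'.2.2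
        · intro f' hf'; rw [hSje] at hf'; simp at hf'
      · have hfE : f ∈ E := by
          rw [hSi, mem_erase, mem_filter] at hf; exact hf.2.1
        have hgE : g ∈ E := by
          rw [hSj, mem_erase, mem_filter] at hg; exact hg.2.1
        obtain ⟨k, hk⟩ := hint f hfE g hgE
        refine ⟨(k, f k), ?_, ?_⟩
        · intro f' hf'
          have : f' = f := Finset.card_le_one.mp hSi1 f' hf' f hf
          rw [this]
        · intro g' hg'
          have : g' = g := Finset.card_le_one.mp hSj1 g' hg' g hg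
          rw [this]; exact hk.symm
  obtain ⟨x, hxi, hxj⟩ := hx
  have hc : (((univ : Finset (Fin r)).erase i).erase j).card = r - 2 := by
    rw [card_erase_of_mem (mem_erase.mpr ⟨hij.symm, mem_univ _⟩),
      card_erase_of_mem (mem_univ _), card_univ, Fintype.card_fin]
    omega
  refine ⟨insert x ((((univ : Finset (Fin r)).erase i).erase j).image (fun k => (k, e k))),
    ?_, ?_⟩
  · intro f hf
    by_cases hfe : f = e
    · have hne : (((univ : Finset (Fin r)).erase i).erase j).Nonempty := by
        rw [← Finset.card_pos, hc]; omega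
      obtain ⟨k, hk⟩ := hne
      refine ⟨k, mem_insert_of_mem ?_⟩
      rw [hfe]
      exact mem_image_of_mem _ hk
    · obtain ⟨k, hk⟩ := hint e he f hf
      by_cases hki : k = i
      · have hfS : f ∈ Si := by
          rw [hSi, mem_erase, mem_filter]
          exact ⟨hfe, hf, by rw [← hki]; exact hk.symm⟩
        refine ⟨x.1, ?_⟩
        rw [hxi f hfS]
        exact mem_insert_self _ _
      · by_cases hkj : k = j
        · have hfS : f ∈ Sj := by
            rw [hSj, mem_erase, mem_filter]
            exact ⟨hfe, hf, by rw [← hkj]; exact hk.symm⟩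
          refine ⟨x.1, ?_⟩
          rw [hxj f hfS]
          exact mem_insert_self _ _
        · refine ⟨k, mem_insert_of_mem ?_⟩
          rw [← hk]
          exact mem_image_of_mem _ (mem_erase.mpr ⟨hkj, mem_erase.mpr ⟨hki, mem_univ _⟩⟩)
  · have h1 := card_insert_le x
      ((((univ : Finset (Fin r)).erase i).erase j).image (fun k => (k, e k)))
    have h2 : ((((univ : Finset (Fin r)).erase i).erase j).image (fun k => (k, e k))).card
        ≤ r - 2 := by
      rw [← hc]; exact card_image_le
    omega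

/-- Reduction: an intersecting family either has a cover with at most `r - 1` vertices, or
all degrees are at least two, no edge has two vertices of degree two, and every part has at
least `r` vertices. -/
lemma inter_reduce (hr : 3 ≤ r) (E : Finset (Fin r → α))
    (hint : ∀ e ∈ E, ∀ f ∈ E, ∃ i, e i = f i) :
    (∃ C : Finset (Fin r × α), (∀ e ∈ E, ∃ i, (i, e i) ∈ C) ∧ C.card ≤ r - 1) ∨
    ((∀ e ∈ E, ∀ i, 2 ≤ fib E i e) ∧
     (∀ e ∈ E, ((univ : Finset (Fin r)).filter (fun i => fib E i e = 2)).card ≤ 1) ∧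
     (∀ i : Fin r, r ≤ (E.image (fun e => e i)).card)) := by
  by_cases h1 : ∃ e ∈ E, ∃ i, fib E i e = 1
  · obtain ⟨e, he, i, hi⟩ := h1
    exact Or.inl (cover_of_deg_one (by omega) E hint he hi)
  by_cases h2 : ∃ e ∈ E, ∃ i j, i ≠ j ∧ fib E i e ≤ 2 ∧ fib E j e ≤ 2
  · obtain ⟨e, he, i, j, hij, hi, hj⟩ := h2
    exact Or.inl (cover_of_two_low hr E hint he hij hi hj)
  by_cases h3 : ∃ i : Fin r, (E.image (fun e => e i)).card < r
  · obtain ⟨i, hi⟩ := h3
    obtain ⟨C, hC, hCcard⟩ := cover_of_part E i
    exact Or.inl ⟨C, hC, by omega⟩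
  refine Or.inr ⟨?_, ?_, ?_⟩
  · intro e he i
    have := fib_pos he i
    have hne : fib E i e ≠ 1 := fun hh => h1 ⟨e, he, i, hh⟩
    omega
  · intro e he
    rw [Finset.card_le_one]
    intro i hi j hj
    by_contra hij
    rw [mem_filter] at hi hj
    exact h2 ⟨e, he, i, j, hij, by omega, by omega⟩
  · intro i
    by_contra h
    exact h3 ⟨i, by omega⟩

/-- chord inequality for `c (c - 1)` on `[3, D]`, with a correction at `c = 2` -/
lemma chord_nat (D c : ℕ) (h2 : 2 ≤ c) (hD : c ≤ D) :
    c * (c - 1) + 3 * D ≤ (D + 2) * c + (D - 2) * (if c = 2 then 1 else 0) := by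
  by_cases hc : c = 2
  · subst hc
    simp
    omega
  · have h3 : 3 ≤ c := by omega
    simp only [hc, if_false, Nat.mul_zero, Nat.add_zero]
    obtain ⟨k, rfl⟩ := Nat.exists_eq_add_of_le h3
    obtain ⟨l, rfl⟩ := Nat.exists_eq_add_of_le hD
    have h4 : 3 + k - 1 = 2 + k := by omega
    rw [h4]
    nlinarith [Nat.zero_le (k * l)]

/-- degree sum inequality for one part -/
lemma part_ineq (E : Finset (Fin r → α)) (D : ℕ)
    (hdeg : ∀ (i : Fin r) (a : α), (E.filter (fun e => e i = a)).card ≤ D)
    (hmin : ∀ e ∈ E, ∀ i, 2 ≤ fib E i e) (i : Fin r) :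
    ∑ e ∈ E, (fib E i e - 1) + 3 * D * (E.image (fun e => e i)).card
      ≤ (D + 2) * E.card + (D - 2) * ∑ a ∈ E.image (fun e => e i),
          (if (E.filter (fun e => e i = a)).card = 2 then 1 else 0) := by
  rw [sum_fib_eq E i (fun d => d - 1)]
  have h1 : E.card = ∑ a ∈ E.image (fun e => e i), (E.filter (fun e => e i = a)).card :=
    Finset.card_eq_sum_card_image (fun e => e i) E
  have h2 : 3 * D * (E.image (fun e => e i)).card = ∑ _a ∈ E.image (fun e => e i), 3 * D := by
    rw [Finset.sum_const, smul_eq_mul, Nat.mul_comm]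
  rw [h1, h2, Finset.mul_sum, Finset.mul_sum, ← Finset.sum_add_distrib,
    ← Finset.sum_add_distrib]
  apply Finset.sum_le_sum
  intro a ha
  obtain ⟨e, he, rfl⟩ := mem_image.mp ha
  exact chord_nat D _ (hmin e he i) (hdeg i (e i))

/-- the number of edges whose vertex in part `i` has degree two is twice the number of such
vertices -/
lemma light_count (E : Finset (Fin r → α)) (i : Fin r) :
    ∑ e ∈ E, (if fib E i e = 2 then 1 else 0)
      = 2 * ∑ a ∈ E.image (fun e => e i),
          (if (E.filter (fun e => e i = a)).card = 2 then 1 else 0) := by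
  rw [sum_fib_eq E i (fun d => if d = 2 then 1 else 0), Finset.mul_sum]
  apply Finset.sum_congr rfl
  intro a _
  split_ifs with h
  · rw [h]
  · simp

/-- intersecting: the other edges are covered by the stars of the vertices of `e` -/
lemma sum_fib_sub_ge (E : Finset (Fin r → α)) (hint : ∀ e ∈ E, ∀ f ∈ E, ∃ i, e i = f i)
    {e : Fin r → α} (he : e ∈ E) : E.card ≤ ∑ i, (fib E i e - 1) + 1 := by
  have h1 := sum_fib_ge E hint he
  have h2 : ∑ i : Fin r, (fib E i e - 1) + r = ∑ i : Fin r, fib E i e := by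
    have : ∑ i : Fin r, (fib E i e - 1 + 1) = ∑ i : Fin r, fib E i e := by
      apply Finset.sum_congr rfl
      intro i _
      have := fib_pos he i
      omega
    rw [← this, Finset.sum_add_distrib]
    simp
  omega

/-- The counting inequality satisfied by an intersecting family of maximum degree at most `D`
in which all degrees are at least two, no edge has two vertices of degree two, and every part
has at least `r` vertices. -/
theorem inter_count (E : Finset (Fin r → α))
    (hint : ∀ e ∈ E, ∀ f ∈ E, ∃ i, e i = f i) (D : ℕ) (hD : 2 ≤ D)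
    (hdeg : ∀ (i : Fin r) (a : α), (E.filter (fun e => e i = a)).card ≤ D)
    (hmin : ∀ e ∈ E, ∀ i, 2 ≤ fib E i e)
    (hlow : ∀ e ∈ E, ((univ : Finset (Fin r)).filter (fun i => fib E i e = 2)).card ≤ 1)
    (hparts : ∀ i : Fin r, r ≤ (E.image (fun e => e i)).card) :
    2 * E.card * E.card + 6 * D * r * r ≤ (2 * D + 4) * r * E.card + D * E.card := by
  obtain ⟨D', rfl⟩ := Nat.exists_eq_add_of_le hD
  have hD2 : 2 + D' - 2 = D' := by omega
  have hpart : ∀ i : Fin r, 2 * ∑ e ∈ E, (fib E i e - 1) + 6 * (2 + D') * r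
      ≤ 2 * (2 + D' + 2) * E.card + D' * ∑ e ∈ E, (if fib E i e = 2 then 1 else 0) := by
    intro i
    have h1 := part_ineq E (2 + D') hdeg hmin i
    have h2 := light_count E i
    have h3 : 3 * (2 + D') * r ≤ 3 * (2 + D') * (E.image (fun e => e i)).card :=
      Nat.mul_le_mul_left _ (hparts i)
    rw [hD2] at h1
    rw [h2]
    have h4 : D' * (2 * ∑ a ∈ E.image (fun e => e i),
          (if (E.filter (fun e => e i = a)).card = 2 then 1 else 0))
        = 2 * (D' * ∑ a ∈ E.image (fun e => e i),
          (if (E.filter (fun e => e i = a)).card = 2 then 1 else 0)) := by ring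
    rw [h4]
    have h5 : 6 * (2 + D') * r = 2 * (3 * (2 + D') * r) := by ring
    have h6 : 2 * (2 + D' + 2) * E.card = 2 * ((2 + D' + 2) * E.card) := by ring
    rw [h5, h6]
    omega
  have hsum := Finset.sum_le_sum (fun i (_ : i ∈ (univ : Finset (Fin r))) => hpart i)
  simp only [Finset.sum_add_distrib, ← Finset.mul_sum, Finset.sum_const, Finset.card_univ,
    Fintype.card_fin, smul_eq_mul] at hsum
  have hS1 : E.card * E.card ≤ ∑ i : Fin r, ∑ e ∈ E, (fib E i e - 1) + E.card := by
    rw [Finset.sum_comm]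
    calc E.card * E.card = ∑ _e ∈ E, E.card := by simp
      _ ≤ ∑ e ∈ E, (∑ i : Fin r, (fib E i e - 1) + 1) :=
          Finset.sum_le_sum (fun e he => sum_fib_sub_ge E hint he)
      _ = ∑ e ∈ E, ∑ i : Fin r, (fib E i e - 1) + E.card := by
          rw [Finset.sum_add_distrib]; simp
  have hS2 : ∑ i : Fin r, ∑ e ∈ E, (if fib E i e = 2 then 1 else 0) ≤ E.card := by
    rw [Finset.sum_comm]
    calc ∑ e ∈ E, ∑ i : Fin r, (if fib E i e = 2 then 1 else 0)
        ≤ ∑ _e ∈ E, 1 := by
          apply Finset.sum_le_sum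
          intro e he
          have := hlow e he
          rw [Finset.card_filter] at this
          exact this
      _ = E.card := by simp
  have hS3 : D' * ∑ i : Fin r, ∑ e ∈ E, (if fib E i e = 2 then 1 else 0) ≤ D' * E.card :=
    Nat.mul_le_mul_left _ hS2
  nlinarith [hsum, hS1, hS3]

/-- Criterion: an intersecting family of maximum degree at most `D` whose number of edges `m`
satisfies `(2D+4) r m + D m < 2 m^2 + 6 D r^2` has a cover with at most `r - 1` vertices. -/
theorem inter_of_criterion (hr : 3 ≤ r) (E : Finset (Fin r → α))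
    (hint : ∀ e ∈ E, ∀ f ∈ E, ∃ i, e i = f i) (D : ℕ) (hD : 2 ≤ D)
    (hdeg : ∀ (i : Fin r) (a : α), (E.filter (fun e => e i = a)).card ≤ D)
    (hcrit : (2 * D + 4) * r * E.card + D * E.card < 2 * E.card * E.card + 6 * D * r * r) :
    ∃ C : Finset (Fin r × α), (∀ e ∈ E, ∃ i, (i, e i) ∈ C) ∧ C.card ≤ r - 1 := by
  rcases inter_reduce hr E hint with h | ⟨hmin, hlow, hparts⟩
  · exact h
  · exfalso
    have := inter_count E hint D hD hdeg hmin hlow hparts
    omega

end Vale.Agent.Lib.P045
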