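import Mathlib
import Vale.Agent.Lib.P045.InterStruct

namespace Vale.Agent.Lib.P045

open Finset

variable {r : ℕ} {α : Type*} [DecidableEq α]

/-- maximum degree at most six, `r ≥ 7` -/
theorem inter_six_large (hr : 7 ≤ r) (E : Finset (Fin r → α))
    (hint : ∀ e ∈ E, ∀ f ∈ E, ∃ i, e i = f i)
    (hdeg : ∀ (i : Fin r) (a : α), (E.filter (fun e => e i = a)).card ≤ 6) :
    ∃ C : Finset (Fin r × α), (∀ e ∈ E, ∃ i, (i, e i) ∈ C) ∧ C.card ≤ r - 1 := by
  apply inter_of_criterion (by omega) E hint 6 (by norm_num) hdeg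
  have h7 : (7 : ℤ) ≤ r := by exact_mod_cast hr
  have hz : ((2 * 6 + 4) * (r : ℤ) * E.card + 6 * E.card
      < 2 * (E.card : ℤ) * E.card + 6 * 6 * r * r) := by
    nlinarith [sq_nonneg (2 * (E.card : ℤ) - 8 * r - 3),
      mul_nonneg (by linarith : (0 : ℤ) ≤ (r : ℤ) - 7) (by linarith : (0 : ℤ) ≤ (r : ℤ))]
  exact_mod_cast hz

/-- maximum degree at most seven, `r ≥ 22` -/
theorem inter_seven_large (hr : 22 ≤ r) (E : Finset (Fin r → α))
    (hint : ∀ e ∈ E, ∀ f ∈ E, ∃ i, e i = f i)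
    (hdeg : ∀ (i : Fin r) (a : α), (E.filter (fun e => e i = a)).card ≤ 7) :
    ∃ C : Finset (Fin r × α), (∀ e ∈ E, ∃ i, (i, e i) ∈ C) ∧ C.card ≤ r - 1 := by
  apply inter_of_criterion (by omega) E hint 7 (by norm_num) hdeg
  have h22 : (22 : ℤ) ≤ r := by exact_mod_cast hr
  have hz : ((2 * 7 + 4) * (r : ℤ) * E.card + 7 * E.card
      < 2 * (E.card : ℤ) * E.card + 6 * 7 * r * r) := by
    nlinarith [sq_nonneg (4 * (E.card : ℤ) - 18 * r - 7),
      mul_nonneg (by linarith : (0 : ℤ) ≤ (r : ℤ) - 22) (by linarith : (0 : ℤ) ≤ (r : ℤ))]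
  exact_mod_cast hz

/-- at most `3 r - 2` edges, no assumption on the degrees -/
theorem inter_few_edges (hr : 3 ≤ r) (E : Finset (Fin r → α))
    (hint : ∀ e ∈ E, ∀ f ∈ E, ∃ i, e i = f i)
    (hm : E.card + 2 ≤ 3 * r) :
    ∃ C : Finset (Fin r × α), (∀ e ∈ E, ∃ i, (i, e i) ∈ C) ∧ C.card ≤ r - 1 := by
  apply inter_of_criterion hr E hint (E.card + 3) (by omega)
    (fun i a => (card_le_card (filter_subset _ _)).trans (by omega))
  have h3 : (3 : ℤ) ≤ r := by exact_mod_cast hr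
  have hm' : (E.card : ℤ) + 2 ≤ 3 * r := by exact_mod_cast hm
  have hm0 : (0 : ℤ) ≤ E.card := by positivity
  have hz : ((2 * ((E.card : ℤ) + 3) + 4) * r * E.card + ((E.card : ℤ) + 3) * E.card
      < 2 * (E.card : ℤ) * E.card + 6 * ((E.card : ℤ) + 3) * r * r) := by
    have h1 : (0 : ℤ) ≤ (E.card : ℤ) * (3 * r - 2 - E.card) * (2 * r - 1) :=
      mul_nonneg (mul_nonneg hm0 (by linarith)) (by linarith)
    have h2 : (E.card : ℤ) * (3 * r + 5) ≤ (3 * r - 2) * (3 * r + 5) :=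
      mul_le_mul_of_nonneg_right (by linarith) (by linarith)
    nlinarith [h1, h2, sq_nonneg ((r : ℤ) - 1)]
  exact_mod_cast hz

end Vale.Agent.Lib.P045
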