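import Mathlib
import Vale.Agent.Lib.P045.InterStruct

namespace Vale.Agent.Lib.P045

open Finset

variable {r : ℕ} {α : Type*} [DecidableEq α]

/-- A sum of `G (f a)` over `S`, when `f` takes values in `{2,...,6}`, sorted by value. -/
lemma sum_by_value26 {β : Type*} [DecidableEq β] (S : Finset β) (f : β → ℕ)
    (hf : ∀ a ∈ S, 2 ≤ f a ∧ f a ≤ 6) (G : ℕ → ℕ) :
    ∑ a ∈ S, G (f a) =
      (S.filter (fun a => f a = 2)).card * G 2 + (S.filter (fun a => f a = 3)).card * G 3 +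
      (S.filter (fun a => f a = 4)).card * G 4 + (S.filter (fun a => f a = 5)).card * G 5 +
      (S.filter (fun a => f a = 6)).card * G 6 := by
  have h := Finset.sum_fiberwise_of_maps_to (s := S) (t := Finset.Icc 2 6) (g := f)
    (fun a ha => Finset.mem_Icc.mpr (hf a ha)) (fun a => G (f a))
  rw [← h]
  have h2 : ∀ d, ∑ a ∈ S.filter (fun a => f a = d), G (f a)
      = (S.filter (fun a => f a = d)).card * G d := by
    intro d
    rw [Finset.sum_congr rfl (fun a ha => by rw [(Finset.mem_filter.mp ha).2]),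
      Finset.sum_const, smul_eq_mul]
  simp only [h2]
  have h3 : (Finset.Icc 2 6 : Finset ℕ) = {2, 3, 4, 5, 6} := by decide
  rw [h3, Finset.sum_insert (by decide), Finset.sum_insert (by decide),
    Finset.sum_insert (by decide), Finset.sum_insert (by decide), Finset.sum_singleton]
  ring

/-- number of vertices of degree `d` in part `i` -/
def vc (E : Finset (Fin r → α)) (i : Fin r) (d : ℕ) : ℕ :=
  ((E.image (fun e => e i)).filter (fun a => (E.filter (fun e => e i = a)).card = d)).card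

/-- number of vertices of degree `d` on the edge `e` -/
def ec (E : Finset (Fin r → α)) (e : Fin r → α) (d : ℕ) : ℕ :=
  ((univ : Finset (Fin r)).filter (fun i => fib E i e = d)).card

lemma part_sum26 (E : Finset (Fin r → α))
    (hdeg : ∀ (i : Fin r) (a : α), (E.filter (fun e => e i = a)).card ≤ 6)
    (hmin : ∀ e ∈ E, ∀ i, 2 ≤ fib E i e) (i : Fin r) (G : ℕ → ℕ) :
    ∑ e ∈ E, G (fib E i e) = 2 * G 2 * vc E i 2 + 3 * G 3 * vc E i 3 + 4 * G 4 * vc E i 4
      + 5 * G 5 * vc E i 5 + 6 * G 6 * vc E i 6 := by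
  have hrange : ∀ a ∈ E.image (fun e => e i),
      2 ≤ (E.filter (fun e => e i = a)).card ∧ (E.filter (fun e => e i = a)).card ≤ 6 := by
    intro a ha
    obtain ⟨e, he, rfl⟩ := mem_image.mp ha
    exact ⟨hmin e he i, hdeg i _⟩
  rw [sum_fib_eq E i G, sum_by_value26 _ _ hrange (fun d => d * G d)]
  simp only [vc]
  ring

lemma part_card26 (E : Finset (Fin r → α))
    (hdeg : ∀ (i : Fin r) (a : α), (E.filter (fun e => e i = a)).card ≤ 6)
    (hmin : ∀ e ∈ E, ∀ i, 2 ≤ fib E i e) (i : Fin r) :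
    (E.image (fun e => e i)).card
      = vc E i 2 + vc E i 3 + vc E i 4 + vc E i 5 + vc E i 6 := by
  have hrange : ∀ a ∈ E.image (fun e => e i),
      2 ≤ (E.filter (fun e => e i = a)).card ∧ (E.filter (fun e => e i = a)).card ≤ 6 := by
    intro a ha
    obtain ⟨e, he, rfl⟩ := mem_image.mp ha
    exact ⟨hmin e he i, hdeg i _⟩
  have h := sum_by_value26 (E.image (fun e => e i))
    (fun a => (E.filter (fun e => e i = a)).card) hrange (fun _ => 1)
  simp only [Finset.sum_const, smul_eq_mul, mul_one] at h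
  rw [h]
  simp only [vc]

lemma part_facts26 (E : Finset (Fin r → α))
    (hdeg : ∀ (i : Fin r) (a : α), (E.filter (fun e => e i = a)).card ≤ 6)
    (hmin : ∀ e ∈ E, ∀ i, 2 ≤ fib E i e) (i : Fin r) :
    E.card = 2 * vc E i 2 + 3 * vc E i 3 + 4 * vc E i 4 + 5 * vc E i 5 + 6 * vc E i 6 := by
  have h := part_sum26 E hdeg hmin i (fun _ => 1)
  simp only [Finset.sum_const, smul_eq_mul, mul_one] at h
  exact h

lemma edge_sum26 (E : Finset (Fin r → α))
    (hdeg : ∀ (i : Fin r) (a : α), (E.filter (fun e => e i = a)).card ≤ 6)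
    (hmin : ∀ e ∈ E, ∀ i, 2 ≤ fib E i e) {e : Fin r → α} (he : e ∈ E) (G : ℕ → ℕ) :
    ∑ i, G (fib E i e) = G 2 * ec E e 2 + G 3 * ec E e 3 + G 4 * ec E e 4
      + G 5 * ec E e 5 + G 6 * ec E e 6 := by
  have hrange : ∀ i ∈ (univ : Finset (Fin r)), 2 ≤ fib E i e ∧ fib E i e ≤ 6 :=
    fun i _ => ⟨hmin e he i, hdeg i (e i)⟩
  rw [sum_by_value26 _ _ hrange G]
  simp only [ec]
  ring

lemma edge_facts26 (E : Finset (Fin r → α))
    (hint : ∀ e ∈ E, ∀ f ∈ E, ∃ i, e i = f i)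
    (hdeg : ∀ (i : Fin r) (a : α), (E.filter (fun e => e i = a)).card ≤ 6)
    (hmin : ∀ e ∈ E, ∀ i, 2 ≤ fib E i e)
    (hlow : ∀ e ∈ E, ((univ : Finset (Fin r)).filter (fun i => fib E i e = 2)).card ≤ 1)
    {e : Fin r → α} (he : e ∈ E) :
    r = ec E e 2 + ec E e 3 + ec E e 4 + ec E e 5 + ec E e 6 ∧ ec E e 2 ≤ 1 ∧
    E.card + r ≤ 2 * ec E e 2 + 3 * ec E e 3 + 4 * ec E e 4 + 5 * ec E e 5 + 6 * ec E e 6 + 1
    := by
  refine ⟨?_, hlow e he, ?_⟩
  · have h := edge_sum26 E hdeg hmin he (fun _ => 1)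
    simp only [Finset.sum_const, smul_eq_mul, mul_one, Finset.card_univ, Fintype.card_fin,
      one_mul] at h
    exact h
  · have h := edge_sum26 E hdeg hmin he (fun d => d)
    have h2 := sum_fib_ge E hint he
    rw [h] at h2
    exact h2

/-- weight function on degrees `2,...,6` -/
def wt6 (w2 w3 w4 w5 w6 : ℕ) (d : ℕ) : ℕ :=
  if d = 2 then w2 else if d = 3 then w3 else if d = 4 then w4 else if d = 5 then w5
  else if d = 6 then w6 else 0

/-- Weighted double counting for maximum degree at most six: a numerical certificate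
`(w, lo, hi)` is contradictory with the structural properties. -/
theorem cert26 (E : Finset (Fin r → α))
    (hint : ∀ e ∈ E, ∀ f ∈ E, ∃ i, e i = f i)
    (hdeg : ∀ (i : Fin r) (a : α), (E.filter (fun e => e i = a)).card ≤ 6)
    (hmin : ∀ e ∈ E, ∀ i, 2 ≤ fib E i e)
    (hlow : ∀ e ∈ E, ((univ : Finset (Fin r)).filter (fun i => fib E i e = 2)).card ≤ 1)
    (hparts : ∀ i : Fin r, r ≤ (E.image (fun e => e i)).card)
    (w2 w3 w4 w5 w6 lo hi : ℕ)
    (hE : ∀ n2 n3 n4 n5 n6 : ℕ, r = n2 + n3 + n4 + n5 + n6 → n2 ≤ 1 →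
      E.card + r ≤ 2 * n2 + 3 * n3 + 4 * n4 + 5 * n5 + 6 * n6 + 1 →
      lo ≤ w2 * n2 + w3 * n3 + w4 * n4 + w5 * n5 + w6 * n6)
    (hP : ∀ x2 x3 x4 x5 x6 : ℕ, E.card = 2 * x2 + 3 * x3 + 4 * x4 + 5 * x5 + 6 * x6 →
      r ≤ x2 + x3 + x4 + x5 + x6 →
      2 * w2 * x2 + 3 * w3 * x3 + 4 * w4 * x4 + 5 * w5 * x5 + 6 * w6 * x6 ≤ hi)
    (hnum : r * hi < E.card * lo) : False := by
  have hpart : ∀ i : Fin r, ∑ e ∈ E, wt6 w2 w3 w4 w5 w6 (fib E i e) ≤ hi := by
    intro i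
    rw [part_sum26 E hdeg hmin i (wt6 w2 w3 w4 w5 w6)]
    have h1 := part_facts26 E hdeg hmin i
    have h2 := part_card26 E hdeg hmin i
    have h3 := hparts i
    have h4 := hP (vc E i 2) (vc E i 3) (vc E i 4) (vc E i 5) (vc E i 6) h1 (by omega)
    simp only [wt6]
    norm_num
    exact h4
  have hedge : ∀ e ∈ E, lo ≤ ∑ i, wt6 w2 w3 w4 w5 w6 (fib E i e) := by
    intro e he
    rw [edge_sum26 E hdeg hmin he (wt6 w2 w3 w4 w5 w6)]
    obtain ⟨h1, h2, h3⟩ := edge_facts26 E hint hdeg hmin hlow he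
    have h4 := hE (ec E e 2) (ec E e 3) (ec E e 4) (ec E e 5) (ec E e 6) h1 h2 h3
    simp only [wt6]
    norm_num
    exact h4
  have h1 : E.card * lo ≤ ∑ e ∈ E, ∑ i, wt6 w2 w3 w4 w5 w6 (fib E i e) := by
    calc E.card * lo = ∑ _e ∈ E, lo := by simp
      _ ≤ _ := Finset.sum_le_sum hedge
  have h2 : ∑ e ∈ E, ∑ i, wt6 w2 w3 w4 w5 w6 (fib E i e)
      = ∑ i, ∑ e ∈ E, wt6 w2 w3 w4 w5 w6 (fib E i e) := Finset.sum_comm
  have h3 : ∑ i : Fin r, ∑ e ∈ E, wt6 w2 w3 w4 w5 w6 (fib E i e) ≤ r * hi := by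
    calc ∑ i : Fin r, ∑ e ∈ E, wt6 w2 w3 w4 w5 w6 (fib E i e)
        ≤ ∑ _i : Fin r, hi := Finset.sum_le_sum (fun i _ => hpart i)
      _ = r * hi := by simp
  omega

end Vale.Agent.Lib.P045
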