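import Mathlib
import Vale.Agent.Lib.P045.Stats26
import Vale.Agent.Lib.P045.InterCor

namespace Vale.Agent.Lib.P045

open Finset

variable {α : Type*} [DecidableEq α]

lemma certE_6_25 (n2 n3 n4 n5 n6 : ℕ) (h1 : 6 = n2 + n3 + n4 + n5 + n6) (h0 : n2 ≤ 1)
    (h2 : 25 + 6 ≤ 2 * n2 + 3 * n3 + 4 * n4 + 5 * n5 + 6 * n6 + 1) :
    28 ≤ 0 * n2 + 2 * n3 + 4 * n4 + 5 * n5 + 6 * n6 := by
  have h6 : n6 ≤ 6 := by omega
  have h5 : n5 ≤ 6 := by omega
  interval_cases n6 <;> interval_cases n5 <;> omega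

lemma certP_6_25 (x2 x3 x4 x5 x6 : ℕ) (h1 : 25 = 2 * x2 + 3 * x3 + 4 * x4 + 5 * x5 + 6 * x6)
    (h2 : 6 ≤ x2 + x3 + x4 + x5 + x6) :
    2 * 0 * x2 + 3 * 2 * x3 + 4 * 4 * x4 + 5 * 5 * x5 + 6 * 6 * x6 ≤ 114 := by
  have h6 : x6 ≤ 4 := by omega
  have h5 : x5 ≤ 5 := by omega
  interval_cases x6 <;> interval_cases x5 <;> omega

lemma certE_6_26 (n2 n3 n4 n5 n6 : ℕ) (h1 : 6 = n2 + n3 + n4 + n5 + n6) (h0 : n2 ≤ 1)
    (h2 : 26 + 6 ≤ 2 * n2 + 3 * n3 + 4 * n4 + 5 * n5 + 6 * n6 + 1) :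
    19 ≤ 0 * n2 + 1 * n3 + 2 * n4 + 3 * n5 + 4 * n6 := by
  have h6 : n6 ≤ 6 := by omega
  have h5 : n5 ≤ 6 := by omega
  interval_cases n6 <;> interval_cases n5 <;> omega

lemma certP_6_26 (x2 x3 x4 x5 x6 : ℕ) (h1 : 26 = 2 * x2 + 3 * x3 + 4 * x4 + 5 * x5 + 6 * x6)
    (h2 : 6 ≤ x2 + x3 + x4 + x5 + x6) :
    2 * 0 * x2 + 3 * 1 * x3 + 4 * 2 * x4 + 5 * 3 * x5 + 6 * 4 * x6 ≤ 80 := by
  have h6 : x6 ≤ 4 := by omega
  have h5 : x5 ≤ 5 := by omega
  interval_cases x6 <;> interval_cases x5 <;> omega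

lemma certE_6_27 (n2 n3 n4 n5 n6 : ℕ) (h1 : 6 = n2 + n3 + n4 + n5 + n6) (h0 : n2 ≤ 1)
    (h2 : 27 + 6 ≤ 2 * n2 + 3 * n3 + 4 * n4 + 5 * n5 + 6 * n6 + 1) :
    25 ≤ 0 * n2 + 2 * n3 + 3 * n4 + 4 * n5 + 5 * n6 := by
  have h6 : n6 ≤ 6 := by omega
  have h5 : n5 ≤ 6 := by omega
  interval_cases n6 <;> interval_cases n5 <;> omega

lemma certP_6_27 (x2 x3 x4 x5 x6 : ℕ) (h1 : 27 = 2 * x2 + 3 * x3 + 4 * x4 + 5 * x5 + 6 * x6)
    (h2 : 6 ≤ x2 + x3 + x4 + x5 + x6) :
    2 * 0 * x2 + 3 * 2 * x3 + 4 * 3 * x4 + 5 * 4 * x5 + 6 * 5 * x6 ≤ 110 := by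
  have h6 : x6 ≤ 4 := by omega
  have h5 : x5 ≤ 5 := by omega
  interval_cases x6 <;> interval_cases x5 <;> omega

/-- profile inequality for 24 edges: weights `60 / d` -/
lemma prof_24_le (n2 n3 n4 n5 n6 : ℕ) (h1 : 6 = n2 + n3 + n4 + n5 + n6) (h0 : n2 ≤ 1)
    (h2 : 24 + 6 ≤ 2 * n2 + 3 * n3 + 4 * n4 + 5 * n5 + 6 * n6 + 1) :
    30 * n2 + 20 * n3 + 15 * n4 + 12 * n5 + 10 * n6 ≤ 90 := by
  have h6 : n6 ≤ 6 := by omega
  have h5 : n5 ≤ 6 := by omega
  interval_cases n6 <;> interval_cases n5 <;> omega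

lemma prof_24_eq (n2 n3 n4 n5 n6 : ℕ) (h1 : 6 = n2 + n3 + n4 + n5 + n6) (h0 : n2 ≤ 1)
    (h2 : 24 + 6 ≤ 2 * n2 + 3 * n3 + 4 * n4 + 5 * n5 + 6 * n6 + 1)
    (h3 : 30 * n2 + 20 * n3 + 15 * n4 + 12 * n5 + 10 * n6 = 90) :
    n2 = 1 ∧ n3 = 1 ∧ n4 = 0 ∧ n5 = 0 ∧ n6 = 4 := by
  have h6 : n6 ≤ 6 := by omega
  have h5 : n5 ≤ 6 := by omega
  interval_cases n6 <;> interval_cases n5 <;> omega

/-- The rigid case: six parts, 24 edges, maximum degree at most six. -/
theorem inter_six_24 (E : Finset (Fin 6 → α))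
    (hint : ∀ e ∈ E, ∀ f ∈ E, ∃ i, e i = f i)
    (hdeg : ∀ (i : Fin 6) (a : α), (E.filter (fun e => e i = a)).card ≤ 6)
    (hmin : ∀ e ∈ E, ∀ i, 2 ≤ fib E i e)
    (hlow : ∀ e ∈ E, ((univ : Finset (Fin 6)).filter (fun i => fib E i e = 2)).card ≤ 1)
    (hparts : ∀ i : Fin 6, 6 ≤ (E.image (fun e => e i)).card)
    (hm : E.card = 24) :
    ∃ C : Finset (Fin 6 × α), (∀ e ∈ E, ∃ i, (i, e i) ∈ C) ∧ C.card ≤ 5 := by
  have hQ : ∀ e ∈ E, ∑ i, wt6 30 20 15 12 10 (fib E i e) ≤ 90 := by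
    intro e he
    rw [edge_sum26 E hdeg hmin he (wt6 30 20 15 12 10)]
    obtain ⟨h1, h2, h3⟩ := edge_facts26 E hint hdeg hmin hlow he
    rw [hm] at h3
    have h4 := prof_24_le _ _ _ _ _ h1 h2 h3
    simp only [wt6]
    norm_num
    exact h4
  have hP : ∀ i : Fin 6, ∑ e ∈ E, wt6 30 20 15 12 10 (fib E i e)
      = 60 * (E.image (fun e => e i)).card := by
    intro i
    rw [part_sum26 E hdeg hmin i (wt6 30 20 15 12 10), part_card26 E hdeg hmin i]
    simp only [wt6]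
    norm_num
    ring
  have hswap : ∑ e ∈ E, ∑ i, wt6 30 20 15 12 10 (fib E i e)
      = ∑ i, ∑ e ∈ E, wt6 30 20 15 12 10 (fib E i e) := Finset.sum_comm
  have hPge : ∀ i : Fin 6, 360 ≤ ∑ e ∈ E, wt6 30 20 15 12 10 (fib E i e) := by
    intro i
    rw [hP i]
    have := hparts i
    omega
  have hEtot : ∑ _e ∈ E, 90 = 2160 := by
    rw [Finset.sum_const, smul_eq_mul, hm]
  have hItot : ∑ _i : Fin 6, 360 = 2160 := by
    rw [Finset.sum_const, smul_eq_mul, Finset.card_univ, Fintype.card_fin]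
  have hQeq : ∀ e ∈ E, ∑ i, wt6 30 20 15 12 10 (fib E i e) = 90 := by
    by_contra hcon
    obtain ⟨e0, hcon⟩ := not_forall.mp hcon
    obtain ⟨he0, hne⟩ := Classical.not_imp.mp hcon
    have hlt : ∑ e ∈ E, ∑ i, wt6 30 20 15 12 10 (fib E i e) < ∑ _e ∈ E, 90 :=
      Finset.sum_lt_sum hQ ⟨e0, he0, lt_of_le_of_ne (hQ e0 he0) hne⟩
    have hge : ∑ _i : Fin 6, 360 ≤ ∑ i, ∑ e ∈ E, wt6 30 20 15 12 10 (fib E i e) :=
      Finset.sum_le_sum (fun i _ => hPge i)
    omega
  have hcard : ∀ i : Fin 6, (E.image (fun e => e i)).card = 6 := by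
    by_contra hcon
    obtain ⟨i0, hne⟩ := not_forall.mp hcon
    have hgt : ∑ _i : Fin 6, 360 < ∑ i, ∑ e ∈ E, wt6 30 20 15 12 10 (fib E i e) := by
      apply Finset.sum_lt_sum (fun i _ => hPge i)
      refine ⟨i0, mem_univ _, ?_⟩
      rw [hP i0]
      have := hparts i0
      omega
    have hle : ∑ e ∈ E, ∑ i, wt6 30 20 15 12 10 (fib E i e) ≤ ∑ _e ∈ E, 90 :=
      Finset.sum_le_sum hQ
    omega
  have hprof : ∀ e ∈ E, ec E e 2 = 1 ∧ ec E e 3 = 1 ∧ ec E e 4 = 0 ∧ ec E e 5 = 0 ∧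
      ec E e 6 = 4 := by
    intro e he
    have hq := hQeq e he
    rw [edge_sum26 E hdeg hmin he (wt6 30 20 15 12 10)] at hq
    obtain ⟨h1, h2, h3⟩ := edge_facts26 E hint hdeg hmin hlow he
    rw [hm] at h3
    simp only [wt6] at hq
    norm_num at hq
    exact prof_24_eq _ _ _ _ _ h1 h2 h3 hq
  have hfibcases : ∀ e ∈ E, ∀ i, fib E i e = 2 ∨ fib E i e = 3 ∨ fib E i e = 6 := by
    intro e he i
    obtain ⟨_, _, h4, h5, _⟩ := hprof e he
    have hlo := hmin e he i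
    have hhi : fib E i e ≤ 6 := hdeg i (e i)
    have hn4 : fib E i e ≠ 4 := by
      intro h
      have hmem : i ∈ (univ : Finset (Fin 6)).filter (fun i => fib E i e = 4) := by
        rw [mem_filter]; exact ⟨mem_univ _, h⟩
      have hpos : 0 < ec E e 4 := Finset.card_pos.mpr ⟨i, hmem⟩
      omega
    have hn5 : fib E i e ≠ 5 := by
      intro h
      have hmem : i ∈ (univ : Finset (Fin 6)).filter (fun i => fib E i e = 5) := by
        rw [mem_filter]; exact ⟨mem_univ _, h⟩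
      have hpos : 0 < ec E e 5 := Finset.card_pos.mpr ⟨i, hmem⟩
      omega
    omega
  have hvc : ∀ (i : Fin 6) (d : ℕ), d = 4 ∨ d = 5 → vc E i d = 0 := by
    intro i d hd
    by_contra h
    have hpos : 0 < vc E i d := Nat.pos_of_ne_zero h
    obtain ⟨a, ha⟩ := Finset.card_pos.mp hpos
    rw [mem_filter] at ha
    obtain ⟨e, he, rfl⟩ := mem_image.mp ha.1
    have h' : fib E i e = d := ha.2
    rcases hfibcases e he i with h'' | h'' | h'' <;> omega
  have htype : ∀ i : Fin 6, (vc E i 3 = 0 ∧ vc E i 6 = 3 ∧ vc E i 2 = 3) ∨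
      (vc E i 3 = 4 ∧ vc E i 6 = 2 ∧ vc E i 2 = 0) := by
    intro i
    have h1 := part_facts26 E hdeg hmin i
    have h2 := part_card26 E hdeg hmin i
    rw [hcard i] at h2
    rw [hm] at h1
    have h4 := hvc i 4 (Or.inl rfl)
    have h5 := hvc i 5 (Or.inr rfl)
    omega
  have hT : ∀ i : Fin 6, ∑ e ∈ E, (if fib E i e = 3 then 1 else 0) = 3 * vc E i 3 := by
    intro i
    rw [part_sum26 E hdeg hmin i (fun d => if d = 3 then 1 else 0)]
    norm_num
  have hsum3 : ∑ i : Fin 6, vc E i 3 = 8 := by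
    have h1 : ∑ i : Fin 6, ∑ e ∈ E, (if fib E i e = 3 then 1 else 0) = 24 := by
      rw [Finset.sum_comm]
      have h' : ∀ e ∈ E, ∑ i : Fin 6, (if fib E i e = 3 then 1 else 0) = 1 := by
        intro e he
        rw [← Finset.card_filter]
        exact (hprof e he).2.1
      rw [Finset.sum_congr rfl h', Finset.sum_const, smul_eq_mul, hm]
    have h2 : ∑ i : Fin 6, ∑ e ∈ E, (if fib E i e = 3 then 1 else 0)
        = 3 * ∑ i : Fin 6, vc E i 3 := by
      rw [Finset.mul_sum]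
      exact Finset.sum_congr rfl (fun i _ => hT i)
    omega
  obtain ⟨i, hi⟩ : ∃ i : Fin 6, vc E i 3 = 4 := by
    by_contra hcon
    have h0 : ∀ i ∈ (univ : Finset (Fin 6)), vc E i 3 = 0 := by
      intro i _
      rcases htype i with h | h
      · exact h.1
      · exact absurd ⟨i, h.1⟩ hcon
    rw [Finset.sum_congr rfl h0] at hsum3
    simp at hsum3
  obtain ⟨j, hji, hj⟩ : ∃ j : Fin 6, j ≠ i ∧ vc E j 3 = 4 := by
    by_contra hcon
    have h0 : ∀ j ∈ (univ : Finset (Fin 6)).erase i, vc E j 3 = 0 := by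
      intro j hj
      rcases htype j with h | h
      · exact h.1
      · exact absurd ⟨j, (mem_erase.mp hj).1, h.1⟩ hcon
    have h1 := Finset.add_sum_erase (univ : Finset (Fin 6)) (fun k => vc E k 3) (mem_univ i)
    rw [Finset.sum_congr rfl h0] at h1
    simp only [Finset.sum_const_zero] at h1
    omega
  have hi' : vc E i 6 = 2 ∧ vc E i 2 = 0 := by
    rcases htype i with h | h <;> omega
  have hj' : vc E j 6 = 2 ∧ vc E j 2 = 0 := by
    rcases htype j with h | h <;> omega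
  have hno2 : ∀ e ∈ E, ∀ k : Fin 6, vc E k 2 = 0 → fib E k e ≠ 2 := by
    intro e he k hk h
    have hmem : e k ∈ (E.image (fun e => e k)).filter
        (fun a => (E.filter (fun e => e k = a)).card = 2) := by
      rw [mem_filter]; exact ⟨mem_image_of_mem _ he, h⟩
    have hpos : 0 < vc E k 2 := Finset.card_pos.mpr ⟨_, hmem⟩
    omega
  refine ⟨(((E.image (fun e => e i)).filter
        (fun a => (E.filter (fun e => e i = a)).card = 6)).image (fun a => (i, a))) ∪
      (((E.image (fun e => e j)).filter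
        (fun a => (E.filter (fun e => e j = a)).card = 6)).image (fun a => (j, a))), ?_, ?_⟩
  · intro e he
    by_cases h6 : fib E i e = 6
    · refine ⟨i, mem_union_left _ (mem_image_of_mem _ ?_)⟩
      rw [mem_filter]; exact ⟨mem_image_of_mem _ he, h6⟩
    · have h3 : fib E i e = 3 := by
        rcases hfibcases e he i with h | h | h
        · exact absurd h (hno2 e he i hi'.2)
        · exact h
        · exact absurd h h6
      have hj6 : fib E j e = 6 := by
        rcases hfibcases e he j with h | h | h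
        · exact absurd h (hno2 e he j hj'.2)
        · exfalso
          have hsub : ({i, j} : Finset (Fin 6)) ⊆
              (univ : Finset (Fin 6)).filter (fun k => fib E k e = 3) := by
            intro k hk
            rw [mem_insert, mem_singleton] at hk
            rw [mem_filter]
            rcases hk with rfl | rfl
            · exact ⟨mem_univ _, h3⟩
            · exact ⟨mem_univ _, h⟩
          have hc := card_le_card hsub
          rw [card_pair (Ne.symm hji)] at hc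
          have h1 := (hprof e he).2.1
          simp only [ec] at h1
          omega
        · exact h
      refine ⟨j, mem_union_right _ (mem_image_of_mem _ ?_)⟩
      rw [mem_filter]; exact ⟨mem_image_of_mem _ he, hj6⟩
  · have h1 := card_union_le
      (((E.image (fun e => e i)).filter
        (fun a => (E.filter (fun e => e i = a)).card = 6)).image (fun a => (i, a)))
      (((E.image (fun e => e j)).filter
        (fun a => (E.filter (fun e => e j = a)).card = 6)).image (fun a => (j, a)))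
    have h2 := card_image_le (s := (E.image (fun e => e i)).filter
        (fun a => (E.filter (fun e => e i = a)).card = 6)) (f := fun a => (i, a))
    have h3 := card_image_le (s := (E.image (fun e => e j)).filter
        (fun a => (E.filter (fun e => e j = a)).card = 6)) (f := fun a => (j, a))
    have h4 := hi'.1
    have h5 := hj'.1
    simp only [vc] at h4 h5
    omega

/-- maximum degree at most six, six parts -/
theorem inter_six_r6 (E : Finset (Fin 6 → α))
    (hint : ∀ e ∈ E, ∀ f ∈ E, ∃ i, e i = f i)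
    (hdeg : ∀ (i : Fin 6) (a : α), (E.filter (fun e => e i = a)).card ≤ 6) :
    ∃ C : Finset (Fin 6 × α), (∀ e ∈ E, ∃ i, (i, e i) ∈ C) ∧ C.card ≤ 6 - 1 := by
  rcases inter_reduce (by norm_num) E hint with h | ⟨hmin, hlow, hparts⟩
  · exact h
  · obtain ⟨m, hm⟩ : ∃ m, E.card = m := ⟨_, rfl⟩
    by_cases hwin : 24 ≤ m ∧ m ≤ 27
    · obtain ⟨hw1, hw2⟩ := hwin
      interval_cases m
      · exact inter_six_24 E hint hdeg hmin hlow hparts hm
      · exfalso
        exact cert26 E hint hdeg hmin hlow hparts 0 2 4 5 6 28 114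
          (by rw [hm]; exact certE_6_25) (by rw [hm]; exact certP_6_25) (by rw [hm]; norm_num)
      · exfalso
        exact cert26 E hint hdeg hmin hlow hparts 0 1 2 3 4 19 80
          (by rw [hm]; exact certE_6_26) (by rw [hm]; exact certP_6_26) (by rw [hm]; norm_num)
      · exfalso
        exact cert26 E hint hdeg hmin hlow hparts 0 2 3 4 5 25 110
          (by rw [hm]; exact certE_6_27) (by rw [hm]; exact certP_6_27) (by rw [hm]; norm_num)
    · exfalso
      have h1 := inter_count E hint 6 (by norm_num) hdeg hmin hlow hparts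
      rw [hm] at h1
      have h2 : m ≤ 23 ∨ 28 ≤ m := by omega
      rcases h2 with h2 | h2
      · nlinarith [Nat.zero_le m]
      · nlinarith

/-- Intersecting `r`-partite hypergraphs of maximum degree at most six, `r ≥ 6`. -/
theorem inter_deg_six {r : ℕ} (hr : 6 ≤ r) (E : Finset (Fin r → α))
    (hint : ∀ e ∈ E, ∀ f ∈ E, ∃ i, e i = f i)
    (hdeg : ∀ (i : Fin r) (a : α), (E.filter (fun e => e i = a)).card ≤ 6) :
    ∃ C : Finset (Fin r × α), (∀ e ∈ E, ∃ i, (i, e i) ∈ C) ∧ C.card ≤ r - 1 := by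
  rcases Nat.lt_or_ge r 7 with h | h
  · have hr6 : r = 6 := by omega
    subst hr6
    exact inter_six_r6 E hint hdeg
  · exact inter_six_large h E hint hdeg

end Vale.Agent.Lib.P045
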