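import Mathlib
import Vale.Agent.Lib.P045.Inter6
import Vale.Agent.Lib.P045.BoundedMain

namespace Vale.Agent.Lib.P045

open Finset

variable {r : ℕ} {α : Type*} [DecidableEq α]

/-- Intersecting `r`-partite hypergraphs, `r ≥ 6`: a cover with at most `r - 1` vertices exists
if the maximum degree is at most six, or `r ≥ 22` and the maximum degree is at most seven, or
there are at most `3 r - 2` edges. -/
theorem inter_main (hr : 6 ≤ r) (E : Finset (Fin r → α))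
    (hint : ∀ e ∈ E, ∀ f ∈ E, ∃ i, e i = f i)
    (hyp : (∀ (i : Fin r) (a : α), (E.filter (fun e => e i = a)).card ≤ 6) ∨
      (22 ≤ r ∧ ∀ (i : Fin r) (a : α), (E.filter (fun e => e i = a)).card ≤ 7) ∨
      E.card + 2 ≤ 3 * r) :
    ∃ C : Finset (Fin r × α), (∀ e ∈ E, ∃ i, (i, e i) ∈ C) ∧ C.card ≤ r - 1 := by
  rcases hyp with h6 | ⟨h22, h7⟩ | hm
  · exact inter_deg_six hr E hint h6
  · exact inter_seven_large h22 E hint h7
  · exact inter_few_edges (by omega) E hint hm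

omit [DecidableEq α] in
/-- From a small cover of an intersecting family to Ryser's inequality. -/
lemma ryser_of_inter (E : Finset (Fin r → α))
    (hC : ∃ C : Finset (Fin r × α), (∀ e ∈ E, ∃ i, (i, e i) ∈ C) ∧ C.card ≤ r - 1) :
    ∃ (C : Finset (Fin r × α)) (M : Finset (Fin r → α)),
      (∀ e ∈ E, ∃ i, (i, e i) ∈ C) ∧ M ⊆ E ∧
      (∀ e ∈ M, ∀ f ∈ M, e ≠ f → ∀ i, e i ≠ f i) ∧
      C.card ≤ (r - 1) * M.card := by
  rcases E.eq_empty_or_nonempty with rfl | ⟨e, he⟩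
  · exact ⟨∅, ∅, by simp, by simp, by simp, by simp⟩
  · obtain ⟨C, hC1, hC2⟩ := hC
    refine ⟨C, {e}, hC1, by simpa using he, ?_, by simpa using hC2⟩
    intro f hf g hg hfg
    rw [mem_singleton] at hf hg
    exact absurd (hf.trans hg.symm) hfg

/-- Combined statement: Ryser's inequality under a bound `D` on the maximum degree, in the
general case for `(D, r)` with `D ≤ 3, r ≥ 4` or `D ≤ 4, r ≥ 6` or `D ≤ 5, r ≥ 13`, and for
intersecting families with `r ≥ 6` when `D ≤ 6`, or `D ≤ 7` and `r ≥ 22`, or there are at most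
`3 r - 2` edges. -/
theorem ryser_combined (D : ℕ) (E : Finset (Fin r → α))
    (hdeg : ∀ (i : Fin r) (a : α), (E.filter (fun e => e i = a)).card ≤ D)
    (hyp : (D ≤ 3 ∧ 4 ≤ r) ∨ (D ≤ 4 ∧ 6 ≤ r) ∨ (D ≤ 5 ∧ 13 ≤ r) ∨
      ((∀ e ∈ E, ∀ f ∈ E, ∃ i, e i = f i) ∧ 6 ≤ r ∧
        (D ≤ 6 ∨ (D ≤ 7 ∧ 22 ≤ r) ∨ E.card + 2 ≤ 3 * r))) :
    ∃ (C : Finset (Fin r × α)) (M : Finset (Fin r → α)),
      (∀ e ∈ E, ∃ i, (i, e i) ∈ C) ∧ M ⊆ E ∧
      (∀ e ∈ M, ∀ f ∈ M, e ≠ f → ∀ i, e i ≠ f i) ∧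
      C.card ≤ (r - 1) * M.card := by
  rcases hyp with h | h | h | ⟨hint, hr, h⟩
  · exact bounded_degree D (Or.inl h) E hdeg
  · exact bounded_degree D (Or.inr (Or.inl h)) E hdeg
  · exact bounded_degree D (Or.inr (Or.inr h)) E hdeg
  · apply ryser_of_inter
    apply inter_main hr E hint
    rcases h with h6 | ⟨h7, h22⟩ | hm
    · exact Or.inl (fun i a => (hdeg i a).trans h6)
    · exact Or.inr (Or.inl ⟨h22, fun i a => (hdeg i a).trans h7⟩)
    · exact Or.inr (Or.inr hm)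

end Vale.Agent.Lib.P045
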