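import Mathlib
import Vale.Agent.Lib.P045.InterMain

/-!
# From the intersecting case to a bound below `r ν` (exchange argument)

Let `E` be an `r`-partite `r`-uniform hypergraph of maximum degree at most `D` such that every
intersecting subfamily of `E` has a cover with at most `r - 1` vertices. Take a maximum matching
`M`. For `e ∈ M` the edges that are disjoint from all other members of `M` form an intersecting
family `Q e` (two disjoint such edges could replace `e`). Choose `I ⊆ M` maximal such that no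
edge meets two members of `I` and no member of `M` outside `I`. Then `|M| ≤ (r (D - 1) + 1) |I|`,
and replacing the `r` vertices of each `e ∈ I` by a cover of `Q e` with `r - 1` vertices gives a
cover with at most `r |M| - |I|` vertices.
-/

namespace Vale.Agent.Lib.P045

open Finset

variable {r : ℕ} {α : Type*} [DecidableEq α]

/-- a maximum matching exists -/
lemma exists_max_matching (E : Finset (Fin r → α)) :
    ∃ M : Finset (Fin r → α), M ⊆ E ∧ (∀ e ∈ M, ∀ f ∈ M, e ≠ f → ∀ i, e i ≠ f i) ∧
      ∀ M' : Finset (Fin r → α), M' ⊆ E → (∀ e ∈ M', ∀ f ∈ M', e ≠ f → ∀ i, e i ≠ f i) →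
        M'.card ≤ M.card := by
  classical
  set S := E.powerset.filter (fun M => ∀ e ∈ M, ∀ f ∈ M, e ≠ f → ∀ i, e i ≠ f i) with hS
  have hne : S.Nonempty := ⟨∅, by simp [hS]⟩
  obtain ⟨M, hM, hmax⟩ := Finset.exists_max_image S Finset.card hne
  rw [hS, mem_filter, mem_powerset] at hM
  refine ⟨M, hM.1, hM.2, fun M' h1 h2 => hmax M' ?_⟩
  rw [hS, mem_filter, mem_powerset]; exact ⟨h1, h2⟩

/-- adding an edge disjoint from all members keeps a matching -/
lemma matching_insert (M0 : Finset (Fin r → α))
    (hM0 : ∀ e ∈ M0, ∀ f ∈ M0, e ≠ f → ∀ i, e i ≠ f i) (f : Fin r → α)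
    (hf : ∀ m ∈ M0, ∀ i, f i ≠ m i) :
    ∀ x ∈ insert f M0, ∀ y ∈ insert f M0, x ≠ y → ∀ i, x i ≠ y i := by
  intro x hx y hy hxy i
  rw [mem_insert] at hx hy
  rcases hx with rfl | hx <;> rcases hy with rfl | hy
  · exact absurd rfl hxy
  · exact hf y hy i
  · exact fun h => hf x hx i h.symm
  · exact hM0 x hx y hy hxy i

/-- Exchange bound: if every intersecting subfamily of `E` has a cover with at most `r - 1`
vertices and the maximum degree is at most `D`, then there are a cover `C` and a matching `M`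
with `(r (D - 1) + 1) |C| + |M| ≤ r (r (D - 1) + 1) |M|`. -/
theorem exchange_bound (hr : 0 < r) (D : ℕ) (E : Finset (Fin r → α))
    (hdeg : ∀ (i : Fin r) (a : α), (E.filter (fun e => e i = a)).card ≤ D)
    (hI : ∀ F : Finset (Fin r → α), F ⊆ E → (∀ e ∈ F, ∀ f ∈ F, ∃ i, e i = f i) →
      ∃ C : Finset (Fin r × α), (∀ e ∈ F, ∃ i, (i, e i) ∈ C) ∧ C.card ≤ r - 1) :
    ∃ (C : Finset (Fin r × α)) (M : Finset (Fin r → α)),
      (∀ e ∈ E, ∃ i, (i, e i) ∈ C) ∧ M ⊆ E ∧
      (∀ e ∈ M, ∀ f ∈ M, e ≠ f → ∀ i, e i ≠ f i) ∧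
      (r * (D - 1) + 1) * C.card + M.card ≤ r * (r * (D - 1) + 1) * M.card := by
  classical
  obtain ⟨M, hME, hMm, hMmax⟩ := exists_max_matching E
  have i0 : Fin r := ⟨0, hr⟩
  -- every edge meets a member of `M`
  have hmeet : ∀ f ∈ E, ∃ e ∈ M, ∃ i, f i = e i := by
    intro f hf
    by_contra hcon
    push Not at hcon
    have hfM : f ∉ M := fun h => hcon f h i0 rfl
    have h1 := hMmax (insert f M) (insert_subset hf hME) (matching_insert M hMm f hcon)
    rw [card_insert_of_notMem hfM] at h1
    omega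
  -- the private families
  set Q : (Fin r → α) → Finset (Fin r → α) :=
    fun e => E.filter (fun f => ∀ e' ∈ M, e' ≠ e → ∀ i, f i ≠ e' i) with hQ
  have hQint : ∀ e ∈ M, ∀ f ∈ Q e, ∀ g ∈ Q e, ∃ i, f i = g i := by
    intro e he f hf g hg
    by_contra hcon
    push Not at hcon
    obtain ⟨hfE, hf'⟩ := mem_filter.mp hf
    obtain ⟨hgE, hg'⟩ := mem_filter.mp hg
    have hfg : f ≠ g := fun h => hcon i0 (by rw [h])
    have hM0 : ∀ x ∈ M.erase e, ∀ y ∈ M.erase e, x ≠ y → ∀ i, x i ≠ y i :=
      fun x hx y hy => hMm x (mem_of_mem_erase hx) y (mem_of_mem_erase hy)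
    have hg0 : ∀ m ∈ M.erase e, ∀ i, g i ≠ m i :=
      fun m hm => hg' m (mem_of_mem_erase hm) (ne_of_mem_erase hm)
    have hf0 : ∀ m ∈ insert g (M.erase e), ∀ i, f i ≠ m i := by
      intro m hm i
      rcases mem_insert.mp hm with rfl | hm
      · exact hcon i
      · exact hf' m (mem_of_mem_erase hm) (ne_of_mem_erase hm) i
    have hgN : g ∉ M.erase e := fun h => hg0 g h i0 rfl
    have hfN : f ∉ insert g (M.erase e) := fun h => hf0 f h i0 rfl
    have hmatch := matching_insert _ (matching_insert _ hM0 g hg0) f hf0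
    have hsub : insert f (insert g (M.erase e)) ⊆ E :=
      insert_subset hfE (insert_subset hgE ((erase_subset e M).trans hME))
    have h1 := hMmax _ hsub hmatch
    rw [card_insert_of_notMem hfN, card_insert_of_notMem hgN, card_erase_of_mem he] at h1
    have : 0 < M.card := card_pos.mpr ⟨e, he⟩
    omega
  -- covers of the private families
  have hC : ∀ e ∈ M, ∃ C : Finset (Fin r × α), (∀ f ∈ Q e, ∃ i, (i, f i) ∈ C) ∧ C.card ≤ r - 1 :=
    fun e he => hI (Q e) (filter_subset _ _) (hQint e he)
  choose! Cf hCf using hC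
  -- a maximal set of members of `M` that can be exchanged simultaneously
  set Ind : Finset (Fin r → α) → Prop := fun I => ∀ f ∈ E, ∀ e1 ∈ I, ∀ e2 ∈ I, e1 ≠ e2 →
    (∃ i, f i = e1 i) → (∃ i, f i = e2 i) → ∃ e3 ∈ M, e3 ∉ I ∧ ∃ i, f i = e3 i with hInd
  set S := M.powerset.filter Ind with hS
  have hSne : S.Nonempty := ⟨∅, by simp [hS, hInd]⟩
  obtain ⟨I, hIS, hImax⟩ := Finset.exists_max_image S Finset.card hSne
  rw [hS, mem_filter, mem_powerset] at hIS
  obtain ⟨hIM, hIind⟩ := hIS
  -- counting: `|M \ I| ≤ |W| ≤ |I| * (r * (D - 1))`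
  set W : Finset (Fin r → α) := I.biUnion (fun e' => (univ : Finset (Fin r)).biUnion
    (fun i => (E.filter (fun f => f i = e' i)).erase e')) with hW
  have hWcard : W.card ≤ I.card * (r * (D - 1)) := by
    calc W.card ≤ ∑ e' ∈ I, ((univ : Finset (Fin r)).biUnion
          (fun i => (E.filter (fun f => f i = e' i)).erase e')).card := card_biUnion_le
      _ ≤ ∑ e' ∈ I, r * (D - 1) := by
          refine sum_le_sum (fun e' he' => ?_)
          calc ((univ : Finset (Fin r)).biUnion
                (fun i => (E.filter (fun f => f i = e' i)).erase e')).card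
              ≤ ∑ i : Fin r, ((E.filter (fun f => f i = e' i)).erase e').card := card_biUnion_le
            _ ≤ ∑ _i : Fin r, (D - 1) := by
                refine sum_le_sum (fun i _ => ?_)
                have hmem : e' ∈ E.filter (fun f => f i = e' i) :=
                  mem_filter.mpr ⟨hME (hIM he'), rfl⟩
                rw [card_erase_of_mem hmem]
                exact Nat.sub_le_sub_right (hdeg i (e' i)) 1
            _ = r * (D - 1) := by simp
      _ = I.card * (r * (D - 1)) := by simp
  have hsd : (M \ I).card ≤ W.card := by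
    refine card_le_card_of_forall_subsingleton
      (fun e f => (∃ i, f i = e i) ∧ ∀ e3 ∈ M, (∃ i, f i = e3 i) → e3 = e ∨ e3 ∈ I) ?_ ?_
    · intro e he
      obtain ⟨heM, heI⟩ := mem_sdiff.mp he
      -- `insert e I` is not exchangeable
      have hnot : ¬ Ind (insert e I) := by
        intro hcon
        have hmem : insert e I ∈ S := by
          rw [hS, mem_filter, mem_powerset]
          exact ⟨insert_subset heM hIM, hcon⟩
        have := hImax _ hmem
        rw [card_insert_of_notMem heI] at this
        omega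
      rw [hInd] at hnot
      push Not at hnot
      obtain ⟨f, hfE, e1, he1, e2, he2, h12, hm1, hm2, hall⟩ := hnot
      -- all members of `M` met by `f` are `e` or in `I`
      have hall' : ∀ e3 ∈ M, (∃ i, f i = e3 i) → e3 = e ∨ e3 ∈ I := by
        intro e3 he3 hm3
        by_contra hcon
        push Not at hcon
        obtain ⟨i, hi⟩ := hm3
        exact hall e3 he3 (by simp [hcon.1, hcon.2]) i hi
      -- `f` meets `e` and a member of `I`
      have hkey : (∃ i, f i = e i) ∧ ∃ e' ∈ I, ∃ i, f i = e' i := by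
        rcases mem_insert.mp he1 with rfl | he1'
        · rcases mem_insert.mp he2 with rfl | he2'
          · exact absurd rfl h12
          · exact ⟨hm1, e2, he2', hm2⟩
        · rcases mem_insert.mp he2 with rfl | he2'
          · exact ⟨hm2, e1, he1', hm1⟩
          · obtain ⟨e3, he3M, he3I, hm3⟩ := hIind f hfE e1 he1' e2 he2' h12 hm1 hm2
            rcases hall' e3 he3M hm3 with rfl | h
            · exact ⟨hm3, e1, he1', hm1⟩
            · exact absurd h he3I
      obtain ⟨hme, e', he', i, hi⟩ := hkey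
      refine ⟨f, ?_, hme, hall'⟩
      rw [hW, mem_biUnion]
      refine ⟨e', he', mem_biUnion.mpr ⟨i, mem_univ _, mem_erase.mpr ⟨?_, mem_filter.mpr ⟨hfE, hi⟩⟩⟩⟩
      -- `f ≠ e'` because `f` meets `e ≠ e'`
      rintro rfl
      obtain ⟨j, hj⟩ := hme
      have hne : f ≠ e := fun h => heI (h ▸ he')
      exact hMm f (hIM he') e heM hne j hj
    · intro f _ e he e2 he2
      have he' : e ∈ M \ I ∧ ((∃ i, f i = e i) ∧
          ∀ e3 ∈ M, (∃ i, f i = e3 i) → e3 = e ∨ e3 ∈ I) := he
      have he2' : e2 ∈ M \ I ∧ ((∃ i, f i = e2 i) ∧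
          ∀ e3 ∈ M, (∃ i, f i = e3 i) → e3 = e2 ∨ e3 ∈ I) := he2
      obtain ⟨heM, heI⟩ := mem_sdiff.mp he'.1
      obtain ⟨he2M, he2I⟩ := mem_sdiff.mp he2'.1
      rcases he'.2.2 e2 he2M he2'.2.1 with h | h
      · exact h.symm
      · exact absurd h he2I
  have hMI : M.card ≤ I.card * (r * (D - 1) + 1) := by
    have h1 : (M \ I).card = M.card - I.card := card_sdiff_of_subset hIM
    have h2 : I.card ≤ M.card := card_le_card hIM
    have h3 := hsd.trans hWcard
    rw [h1] at h3
    rw [Nat.mul_add, Nat.mul_one]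
    omega
  -- the cover
  set C : Finset (Fin r × α) :=
    (M \ I).biUnion (fun e => (univ : Finset (Fin r)).image (fun i => (i, e i))) ∪ I.biUnion Cf
    with hCdef
  have hCcard : C.card + I.card ≤ r * M.card := by
    have h1 : ((M \ I).biUnion (fun e => (univ : Finset (Fin r)).image (fun i => (i, e i)))).card
        ≤ (M \ I).card * r := by
      calc _ ≤ ∑ e ∈ M \ I, ((univ : Finset (Fin r)).image (fun i => (i, e i))).card :=
            card_biUnion_le
        _ ≤ ∑ _e ∈ M \ I, r := by
            refine sum_le_sum (fun e _ => ?_)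
            calc ((univ : Finset (Fin r)).image (fun i => (i, e i))).card
                ≤ (univ : Finset (Fin r)).card := card_image_le
              _ = r := by simp
        _ = (M \ I).card * r := by simp
    have h2 : (I.biUnion Cf).card ≤ I.card * (r - 1) := by
      calc (I.biUnion Cf).card ≤ ∑ e ∈ I, (Cf e).card := card_biUnion_le
        _ ≤ ∑ _e ∈ I, (r - 1) := sum_le_sum (fun e he => (hCf e (hIM he)).2)
        _ = I.card * (r - 1) := by simp
    have h3 : C.card ≤ (M \ I).card * r + I.card * (r - 1) :=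
      (card_union_le _ _).trans (add_le_add h1 h2)
    have h4 : (M \ I).card = M.card - I.card := card_sdiff_of_subset hIM
    have h5 : I.card ≤ M.card := card_le_card hIM
    have h6 : I.card * (r - 1) + I.card = I.card * r := by
      have : r - 1 + 1 = r := Nat.sub_add_cancel hr
      calc I.card * (r - 1) + I.card = I.card * (r - 1 + 1) := by ring
        _ = I.card * r := by rw [this]
    have h7 : (M.card - I.card) * r + I.card * r = M.card * r := by
      rw [← Nat.add_mul, Nat.sub_add_cancel h5]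
    rw [h4] at h3
    calc C.card + I.card ≤ (M.card - I.card) * r + I.card * (r - 1) + I.card := by omega
      _ = (M.card - I.card) * r + I.card * r := by rw [add_assoc, h6]
      _ = M.card * r := h7
      _ = r * M.card := mul_comm _ _
  have hCcov : ∀ f ∈ E, ∃ i, (i, f i) ∈ C := by
    intro f hf
    by_cases hout : ∃ e ∈ M, e ∉ I ∧ ∃ i, f i = e i
    · obtain ⟨e, heM, heI, i, hi⟩ := hout
      refine ⟨i, ?_⟩
      rw [hCdef, mem_union]
      left
      rw [mem_biUnion]
      exact ⟨e, mem_sdiff.mpr ⟨heM, heI⟩, mem_image.mpr ⟨i, mem_univ _, by rw [hi]⟩⟩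
    · push Not at hout
      obtain ⟨e0, he0M, hm0⟩ := hmeet f hf
      have he0I : e0 ∈ I := by
        by_contra hcon
        obtain ⟨i, hi⟩ := hm0
        exact hout e0 he0M hcon i hi
      have hfQ : f ∈ Q e0 := by
        rw [hQ, mem_filter]
        refine ⟨hf, fun e' he'M hne i hi => ?_⟩
        have he'I : e' ∈ I := by
          by_contra hcon
          exact hout e' he'M hcon i hi
        obtain ⟨e3, he3M, he3I, j, hj⟩ := hIind f hf e0 he0I e' he'I (Ne.symm hne) hm0 ⟨i, hi⟩
        exact hout e3 he3M he3I j hj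
      obtain ⟨i, hi⟩ := (hCf e0 he0M).1 f hfQ
      refine ⟨i, ?_⟩
      rw [hCdef, mem_union]
      right
      exact mem_biUnion.mpr ⟨e0, he0I, hi⟩
  refine ⟨C, M, hCcov, hME, hMm, ?_⟩
  set N := r * (D - 1) + 1 with hN
  have hA : N * C.card + N * I.card ≤ N * (r * M.card) := by
    rw [← Nat.mul_add]; exact Nat.mul_le_mul_left N hCcard
  have hB : M.card ≤ N * I.card := by rw [mul_comm]; exact hMI
  calc N * C.card + M.card ≤ N * C.card + N * I.card := by omega
    _ ≤ N * (r * M.card) := hA
    _ = r * N * M.card := by ring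

/-- Unconditional form: for `r ≥ 6` and maximum degree at most six, or `r ≥ 22` and maximum
degree at most seven, the intersecting case is available for every subfamily; the remaining
alternative keeps the general reduction. -/
theorem exchange_main (hr : 0 < r) (D : ℕ) (E : Finset (Fin r → α))
    (hdeg : ∀ (i : Fin r) (a : α), (E.filter (fun e => e i = a)).card ≤ D)
    (hyp : (6 ≤ r ∧ D ≤ 6) ∨ (22 ≤ r ∧ D ≤ 7) ∨
      (∀ F : Finset (Fin r → α), F ⊆ E → (∀ e ∈ F, ∀ f ∈ F, ∃ i, e i = f i) →
        ∃ C : Finset (Fin r × α), (∀ e ∈ F, ∃ i, (i, e i) ∈ C) ∧ C.card ≤ r - 1)) :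
    ∃ (C : Finset (Fin r × α)) (M : Finset (Fin r → α)),
      (∀ e ∈ E, ∃ i, (i, e i) ∈ C) ∧ M ⊆ E ∧
      (∀ e ∈ M, ∀ f ∈ M, e ≠ f → ∀ i, e i ≠ f i) ∧
      (r * (D - 1) + 1) * C.card + M.card ≤ r * (r * (D - 1) + 1) * M.card := by
  apply exchange_bound hr D E hdeg
  rcases hyp with ⟨h6, hD⟩ | ⟨h22, hD⟩ | h
  · intro F hF hint
    exact inter_main h6 F hint (Or.inl (fun i a =>
      ((card_le_card (filter_subset_filter _ hF)).trans (hdeg i a)).trans hD))
  · intro F hF hint
    exact inter_main (by omega) F hint (Or.inr (Or.inl ⟨h22, fun i a =>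
      ((card_le_card (filter_subset_filter _ hF)).trans (hdeg i a)).trans hD⟩))
  · exact h

end Vale.Agent.Lib.P045
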