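import Mathlib
import Vale.Agent.Lib.P045.CertCases

namespace Vale.Agent.Lib.P045

open Finset

variable {r : ℕ} {α : Type*} [DecidableEq α]

theorem cert_lemma' (hr : 0 < r) (E : Finset (Fin r → α))
    (hint : ∀ e ∈ E, ∀ f ∈ E, ∃ i, e i = f i)
    (hdeg : ∀ (i : Fin r) (a : α), (E.filter (fun e => e i = a)).card ≤ 5)
    (m : ℕ) (hm : E.card = m) (w1 w2 w3 w4 w5 lo hi : ℕ)
    (hE : ∀ n1 n2 n3 n4 n5 : ℕ, r = n1 + n2 + n3 + n4 + n5 →
      m + r ≤ n1 + 2 * n2 + 3 * n3 + 4 * n4 + 5 * n5 + 1 →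
      lo ≤ w1 * n1 + w2 * n2 + w3 * n3 + w4 * n4 + w5 * n5)
    (hP : ∀ x1 x2 x3 x4 x5 : ℕ, m = x1 + 2 * x2 + 3 * x3 + 4 * x4 + 5 * x5 →
      2 * r ≤ 2 * (x3 + x4 + x5) + (x1 + 2 * x2) + 1 →
      w1 * x1 + 2 * w2 * x2 + 3 * w3 * x3 + 4 * w4 * x4 + 5 * w5 * x5 ≤ hi)
    (hnum : r * hi < m * lo) :
    ∃ C : Finset (Fin r × α), (∀ e ∈ E, ∃ i, (i, e i) ∈ C) ∧ C.card ≤ r - 1 := by
  subst hm
  exact cert_lemma hr E hint hdeg w1 w2 w3 w4 w5 lo hi hE hP hnum

/-- Ryser's conjecture for intersecting `r`-partite hypergraphs of maximum degree at most five,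
for every `r ≥ 6`. -/
theorem inter_deg_five (hr : 6 ≤ r) (E : Finset (Fin r → α))
    (hint : ∀ e ∈ E, ∀ f ∈ E, ∃ i, e i = f i)
    (hdeg : ∀ (i : Fin r) (a : α), (E.filter (fun e => e i = a)).card ≤ 5) :
    ∃ C : Finset (Fin r × α), (∀ e ∈ E, ∃ i, (i, e i) ∈ C) ∧ C.card ≤ r - 1 := by
  by_cases hlp : (6 * r + 1) * E.card + 5 * r < E.card * E.card + 10 * r * r
  · exact lp_case (by omega) E hint hdeg hlp
  · have hlp' := not_lt.mp hlp
    obtain ⟨m, hm⟩ : ∃ m, E.card = m := ⟨_, rfl⟩
    rw [hm] at hlp'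
    have hz : (m : ℤ) * m + 10 * r * r ≤ (6 * r + 1) * m + 5 * r := by exact_mod_cast hlp'
    have hr8 : r ≤ 8 := by
      by_contra h
      have h9z : (9 : ℤ) ≤ r := by exact_mod_cast (by omega : 9 ≤ r)
      nlinarith [sq_nonneg (2 * (m : ℤ) - 6 * r - 1)]
    interval_cases r
    · have hm1 : 15 ≤ m := by
        by_contra h
        have h' : (m : ℤ) ≤ 14 := by exact_mod_cast (by omega : m ≤ 14)
        push_cast at hz
        nlinarith
      have hm2 : m ≤ 22 := by
        by_contra h
        have h' : (23 : ℤ) ≤ m := by exact_mod_cast (by omega : 23 ≤ m)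
        push_cast at hz
        nlinarith
      interval_cases m
      · exact cert_lemma' (by norm_num) E hint hdeg 15 hm 0 0 1 2 3 8 18
          certE_6_15 certP_6_15 (by norm_num)
      · exact cert_lemma' (by norm_num) E hint hdeg 16 hm 0 0 1 2 3 9 23
          certE_6_16 certP_6_16 (by norm_num)
      · exact cert_lemma' (by norm_num) E hint hdeg 17 hm 0 1 3 4 5 20 56
          certE_6_17 certP_6_17 (by norm_num)
      · exact cert_lemma' (by norm_num) E hint hdeg 18 hm 0 1 2 3 4 17 50
          certE_6_18 certP_6_18 (by norm_num)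
      · exact cert_lemma' (by norm_num) E hint hdeg 19 hm 0 1 2 3 4 18 56
          certE_6_19 certP_6_19 (by norm_num)
      · exact cert_lemma' (by norm_num) E hint hdeg 20 hm 0 1 3 4 5 24 79
          certE_6_20 certP_6_20 (by norm_num)
      · exact cert_lemma' (by norm_num) E hint hdeg 21 hm 0 0 1 2 3 14 48
          certE_6_21 certP_6_21 (by norm_num)
      · exact cert_lemma' (by norm_num) E hint hdeg 22 hm 0 0 1 2 3 15 53
          certE_6_22 certP_6_22 (by norm_num)
    · have hm1 : 19 ≤ m := by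
        by_contra h
        have h' : (m : ℤ) ≤ 18 := by exact_mod_cast (by omega : m ≤ 18)
        push_cast at hz
        nlinarith
      have hm2 : m ≤ 24 := by
        by_contra h
        have h' : (25 : ℤ) ≤ m := by exact_mod_cast (by omega : 25 ≤ m)
        push_cast at hz
        nlinarith
      interval_cases m
      · exact cert_lemma' (by norm_num) E hint hdeg 19 hm 0 0 2 3 4 15 40
          certE_7_19 certP_7_19 (by norm_num)
      · exact cert_lemma' (by norm_num) E hint hdeg 20 hm 0 0 1 2 3 12 33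
          certE_7_20 certP_7_20 (by norm_num)
      · exact cert_lemma' (by norm_num) E hint hdeg 21 hm 0 0 1 2 3 13 38
          certE_7_21 certP_7_21 (by norm_num)
      · exact cert_lemma' (by norm_num) E hint hdeg 22 hm 0 0 2 4 5 24 75
          certE_7_22 certP_7_22 (by norm_num)
      · exact cert_lemma' (by norm_num) E hint hdeg 23 hm 0 0 1 2 3 15 48
          certE_7_23 certP_7_23 (by norm_num)
      · exact cert_lemma' (by norm_num) E hint hdeg 24 hm 0 0 1 2 3 16 53
          certE_7_24 certP_7_24 (by norm_num)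
    · have hm1 : 24 ≤ m := by
        by_contra h
        have h' : (m : ℤ) ≤ 23 := by exact_mod_cast (by omega : m ≤ 23)
        push_cast at hz
        nlinarith
      have hm2 : m ≤ 25 := by
        by_contra h
        have h' : (26 : ℤ) ≤ m := by exact_mod_cast (by omega : 26 ≤ m)
        push_cast at hz
        nlinarith
      interval_cases m
      · exact cert_lemma' (by norm_num) E hint hdeg 24 hm 0 1 2 3 4 23 68
          certE_8_24 certP_8_24 (by norm_num)
      · exact cert_lemma' (by norm_num) E hint hdeg 25 hm 0 0 1 2 3 16 48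
          certE_8_25 certP_8_25 (by norm_num)

end Vale.Agent.Lib.P045
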